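import Vale.Agent.N146.Proc.Main
import Vale.Agent.P146.H605.Noise

/-!
# P146, process limit: the inputs in the form of the library (helper75)
-/

open MeasureTheory ProbabilityTheory Set Filter Topology

namespace Vale.Agent.N146.Proc

open Vale.Agent.P146 Vale.Agent.P146.H196 Vale.Agent.P146.H605

variable {b : ℝ}

lemma cw_of {C D : ℝ} (hC : 0 < C) (hD : 0 < D)
    (hV : ∀ n : ℕ, 2 ≤ n → Var[freeEnergy n b; disorder n] ≤ C * (n : ℝ) ^ (1 / 3 : ℝ))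
    (hW : ∀ n : ℕ, 2 ≤ n → ∀ T : ℝ, 0 < T → T ≤ 1 →
      (1 - D * (T * (n : ℝ) ^ (1 / 3 : ℝ)) ^ (1 / 1000 : ℝ)) *
          Var[freeEnergy n b; disorder n] ≤ crossCov n b (1 - T) ∧
        crossCov n b (1 - T) ≤ D * (T * (n : ℝ) ^ (1 / 3 : ℝ)) ^ (-(1 / 1000) : ℝ) *
          Var[freeEnergy n b; disorder n]) : CW b := by
  have hCD : 0 < D * C := by positivity
  refine ⟨1 + C + D * C, by linarith, fun n hn => ?_⟩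
  have hN : 0 ≤ (n : ℝ) ^ (1 / 3 : ℝ) := by positivity
  have h1 := hV n hn
  refine ⟨h1.trans (mul_le_mul_of_nonneg_right (by linarith) hN), fun T h0 hT => ?_⟩
  obtain ⟨k1, k2⟩ := hW n hn T h0 hT
  have q : ∀ r : ℝ, 0 ≤ r → D * r * Var[freeEnergy n b; disorder n] ≤
      (1 + C + D * C) * (n : ℝ) ^ (1 / 3 : ℝ) * r := by
    intro r hr
    have q1 := mul_le_mul_of_nonneg_left h1 (show 0 ≤ D * r by positivity)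
    have q2 : 0 ≤ (1 + C) * (n : ℝ) ^ (1 / 3 : ℝ) * r := by positivity
    linarith
  refine ⟨crossCov_nonneg n b (by linarith) (by linarith),
    crossCov_le_var n b (by omega) (by linarith) (by linarith), ?_,
    k2.trans (q _ (by positivity))⟩
  have := q ((T * (n : ℝ) ^ (1 / 3 : ℝ)) ^ (1 / 1000 : ℝ)) (by positivity)
  linarith

lemma m4_of {C : ℝ} (h : ∀ n : ℕ, 2 ≤ n → ∀ p : ℝ, 1 ≤ p →
    ∫ g, |freeEnergy n b g - meanF n b| ^ p ∂(disorder n) ≤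
      (C * (p ^ (5 / 6 : ℝ) * (n : ℝ) ^ (1 / 6 : ℝ))) ^ p) : M4 b := by
  refine ⟨(C * (4 : ℝ) ^ (5 / 6 : ℝ)) ^ 4, fun n hn => ?_⟩
  have hN1 := N_ge (n := n) (by omega)
  have k := h n hn (4 : ℕ) (by norm_num)
  simp only [Real.rpow_natCast, Even.pow_abs (show Even 4 by decide)] at k
  simp only [div_pow]
  rw [integral_div, div_le_iff₀ (by positivity), ← mul_pow, mul_assoc]
  exact_mod_cast k

/-- **The process limit**, with the inputs in the form of the results `TwoSided` and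
`ChaosWindow`. -/
theorem process [MeasurableSpace C(ℝ, ℝ)] [BorelSpace C(ℝ, ℝ)] (hb : 1 < b) {v E D : ℝ}
    (hv : 0 < v) (hE : 0 < E) (hD : 0 < D)
    (hV : ∀ n : ℕ, 2 ≤ n → v * (n : ℝ) ^ (1 / 3 : ℝ) ≤ Var[freeEnergy n b; disorder n] ∧
      Var[freeEnergy n b; disorder n] ≤ E * (n : ℝ) ^ (1 / 3 : ℝ))
    (hM : ∀ n : ℕ, 2 ≤ n → ∀ p : ℝ, 1 ≤ p →
      ∫ g, |freeEnergy n b g - meanF n b| ^ p ∂(disorder n) ≤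
        (E * (p ^ (5 / 6 : ℝ) * (n : ℝ) ^ (1 / 6 : ℝ))) ^ p)
    (hW : ∀ n : ℕ, 2 ≤ n → ∀ T : ℝ, 0 < T → T ≤ 1 →
      (1 - D * (T * (n : ℝ) ^ (1 / 3 : ℝ)) ^ (1 / 1000 : ℝ)) *
          Var[freeEnergy n b; disorder n] ≤ crossCov n b (1 - T) ∧
        crossCov n b (1 - T) ≤ D * (T * (n : ℝ) ^ (1 / 3 : ℝ)) ^ (-(1 / 1000) : ℝ) *
          Var[freeEnergy n b; disorder n])
    (law : ℕ → ProbabilityMeasure ℝ) (hlaw : ∀ n, (law n : Measure ℝ) = (disorder n).map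
      fun g => (freeEnergy n b g - meanF n b) / (n : ℝ) ^ (1 / 6 : ℝ)) :
    IsTightMeasureSet {(lawP b n : Measure C(ℝ, ℝ)) | n} ∧
    (∀ φ : ℕ → ℕ, ∃ ψ : ℕ → ℕ, StrictMono ψ ∧
      ∃ Q : ProbabilityMeasure C(ℝ, ℝ), Tendsto (lawP b ∘ φ ∘ ψ) atTop (𝓝 Q)) ∧
    ∃ c C : ℝ, 0 < c ∧ 0 < C ∧ ∀ φ : ℕ → ℕ, Tendsto φ atTop atTop →
      ∀ Q : ProbabilityMeasure C(ℝ, ℝ), Tendsto (lawP b ∘ φ) atTop (𝓝 Q) →
      (∃ ν : ProbabilityMeasure ℝ, Tendsto (law ∘ φ) atTop (𝓝 ν) ∧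
        ∀ τ : ℝ, (Q : Measure C(ℝ, ℝ)).map (fun y => y τ) = ν) ∧
      (∀ s, MeasurePreserving (shift s) (Q : Measure C(ℝ, ℝ)) Q) ∧
      MeasurePreserving rev (Q : Measure C(ℝ, ℝ)) Q ∧
      (∀ᵐ y ∂(Q : Measure C(ℝ, ℝ)), ∀ S : ℝ, ∃ K : ℝ, ∀ σ τ : ℝ, |σ| ≤ S → |τ| ≤ S →
        |y τ - y σ| ≤ K * |τ - σ| ^ (1 / 2000 : ℝ)) ∧
      (∀ σ τ : ℝ, |τ - σ| ≤ 1 → ∀ u : ℝ, 0 ≤ u →
        (Q : Measure C(ℝ, ℝ)).real {y | u * |τ - σ| ^ (1 / 1000 : ℝ) < |y τ - y σ|} ≤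
          C * Real.exp (-(c * u))) ∧
      (∀ τ : ℝ, Integrable (fun y => y 0 * y τ) (Q : Measure C(ℝ, ℝ)) ∧
        Tendsto (fun k => crossCov (φ k) b (Real.cos (τ / (φ k : ℝ) ^ (1 / 6 : ℝ))) /
          (φ k : ℝ) ^ (1 / 3 : ℝ)) atTop (𝓝 (∫ y, y 0 * y τ ∂(Q : Measure C(ℝ, ℝ))))) ∧
      c ≤ ∫ y, y 0 * y 0 ∂(Q : Measure C(ℝ, ℝ)) ∧
      (∀ τ : ℝ, τ ≠ 0 → 0 ≤ ∫ y, y 0 * y τ ∂(Q : Measure C(ℝ, ℝ)) ∧
        ∫ y, y 0 * y τ ∂(Q : Measure C(ℝ, ℝ)) ≤ C * |τ| ^ (-(1 / 500) : ℝ) ∧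
        ∫ y, y 0 * y 0 ∂(Q : Measure C(ℝ, ℝ)) - ∫ y, y 0 * y τ ∂(Q : Measure C(ℝ, ℝ)) ≤
          C * |τ| ^ (1 / 500 : ℝ)) ∧
      (∀ A B : Set C(ℝ, ℝ), MeasurableSet A → MeasurableSet B →
        Tendsto (fun τ => (Q : Measure C(ℝ, ℝ)).real (A ∩ shift τ ⁻¹' B)) atTop
          (𝓝 ((Q : Measure C(ℝ, ℝ)).real A * (Q : Measure C(ℝ, ℝ)).real B))) ∧
      ∀ s : ℝ, s ≠ 0 → Ergodic (shift s) (Q : Measure C(ℝ, ℝ)) :=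
  main hb (cw_of hE hD (fun n hn => (hV n hn).2) hW) (m4_of hM) hv (fun n hn => (hV n hn).1)
    law hlaw

end Vale.Agent.N146.Proc
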