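import Mathlib

/-!
# P146, process limit: chaining and compact sets of continuous paths (helper75)

`Hol γ M L`: the paths with `|y 0| ≤ M` which are `γ`-Hoelder on every `[-j, j]` with the constant
`L (j + 1)`.  These sets are compact.  `tight_of`: exponential tails of the increments at the scale
`|τ - σ| ^ (2 γ)` give a uniform bound of the mass outside of these sets.
-/

open MeasureTheory Filter Topology Set

namespace Vale.Agent.N146.Proc

/-- the approximation by dyadic points -/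
lemma dyadic_approx {y : ℝ → ℝ} (hy : Continuous y) {D s : ℝ} (hD : 0 ≤ D) (hs0 : 0 ≤ s)
    (hs : s < 1) {j : ℕ}
    (h : ∀ (k : ℕ) (i : ℤ), |(i : ℝ)| ≤ (j + 1) * 2 ^ k →
      |y ((i + 1) / 2 ^ k) - y (i / 2 ^ k)| ≤ D * s ^ k)
    {t : ℝ} (ht : |t| ≤ j) (k : ℕ) :
    |y t - y (⌊2 ^ k * t⌋ / 2 ^ k)| ≤ D * s ^ k / (1 - s) := by
  have hu : ∀ l : ℕ, dist (y (⌊2 ^ l * t⌋ / 2 ^ l)) (y (⌊2 ^ (l + 1) * t⌋ / 2 ^ (l + 1))) ≤
      D * s ^ l := by
    intro l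
    have p2 : (0 : ℝ) < 2 ^ l := by positivity
    obtain ⟨i, hi⟩ : ∃ i : ℤ, i = ⌊2 ^ l * t⌋ := ⟨_, rfl⟩
    have h1 : (i : ℝ) ≤ 2 ^ l * t := by rw [hi]; exact Int.floor_le _
    have h2 : 2 ^ l * t < (i : ℝ) + 1 := by rw [hi]; exact Int.lt_floor_add_one _
    have h3 : ⌊2 ^ (l + 1) * t⌋ = 2 * i ∨ ⌊2 ^ (l + 1) * t⌋ = 2 * i + 1 := by
      have a1 : 2 * i ≤ ⌊2 ^ (l + 1) * t⌋ := by
        rw [Int.le_floor]; push_cast; rw [pow_succ]; linarith
      have a2 : ⌊2 ^ (l + 1) * t⌋ < 2 * i + 2 := by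
        rw [Int.floor_lt]; push_cast; rw [pow_succ]; linarith
      omega
    have e0 : ((2 * i : ℤ) : ℝ) / 2 ^ (l + 1) = (i : ℝ) / 2 ^ l := by
      push_cast; rw [pow_succ]; field_simp
    rw [← hi]
    rcases h3 with h3 | h3
    · rw [h3, e0, dist_self]; positivity
    · rw [h3, ← e0, dist_comm, Real.dist_eq]
      have hb : |((2 * i : ℤ) : ℝ)| ≤ (j + 1) * 2 ^ (l + 1) := by
        have t1 := abs_le.1 ht
        have q1 : (1 : ℝ) ≤ 2 ^ l := one_le_pow₀ (by norm_num)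
        have q2 : 2 ^ l * t ≤ 2 ^ l * j := mul_le_mul_of_nonneg_left t1.2 p2.le
        have q3 : 2 ^ l * (-(j : ℝ)) ≤ 2 ^ l * t := mul_le_mul_of_nonneg_left t1.1 p2.le
        push_cast
        rw [abs_le, pow_succ]
        constructor <;> nlinarith
      have := h (l + 1) (2 * i) hb
      have e1 : (((2 * i + 1 : ℤ) : ℝ)) = ((2 * i : ℤ) : ℝ) + 1 := by push_cast; ring
      rw [e1]
      refine this.trans (mul_le_mul_of_nonneg_left ?_ hD)
      rw [pow_succ]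
      exact mul_le_of_le_one_right (by positivity) hs.le
  have hlim : Tendsto (fun l : ℕ => y (⌊2 ^ l * t⌋ / 2 ^ l)) atTop (𝓝 (y t)) := by
    refine (hy.tendsto t).comp ?_
    have h0 : Tendsto (fun l : ℕ => t - (1 / 2 : ℝ) ^ l) atTop (𝓝 (t - 0)) :=
      tendsto_const_nhds.sub (tendsto_pow_atTop_nhds_zero_of_lt_one (by norm_num) (by norm_num))
    rw [sub_zero] at h0
    refine tendsto_of_tendsto_of_tendsto_of_le_of_le h0 tendsto_const_nhds (fun l => ?_) fun l => ?_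
    · have p2 : (0 : ℝ) < 2 ^ l := by positivity
      have h2 := Int.lt_floor_add_one (2 ^ l * t)
      simp only
      rw [le_div_iff₀ p2, sub_mul, one_div, inv_pow, inv_mul_cancel₀ p2.ne']
      linarith
    · have p2 : (0 : ℝ) < 2 ^ l := by positivity
      have h1 := Int.floor_le (2 ^ l * t)
      simp only
      rw [div_le_iff₀ p2]
      linarith
  have := dist_le_of_le_geometric_of_tendsto s D hs hu hlim k
  rwa [dist_comm, Real.dist_eq] at this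

/-- two points at a distance at most `2 ^ (-k)` -/
lemma dyadic_pair {y : ℝ → ℝ} (hy : Continuous y) {D s : ℝ} (hD : 0 ≤ D) (hs0 : 0 ≤ s)
    (hs : s < 1) {j : ℕ}
    (h : ∀ (k : ℕ) (i : ℤ), |(i : ℝ)| ≤ (j + 1) * 2 ^ k →
      |y ((i + 1) / 2 ^ k) - y (i / 2 ^ k)| ≤ D * s ^ k)
    {σ τ : ℝ} (hσ : |σ| ≤ j) (hτ : |τ| ≤ j) (hst : σ ≤ τ) {k : ℕ} (hk : τ - σ ≤ (1 / 2) ^ k) :
    |y τ - y σ| ≤ 3 * (D * s ^ k / (1 - s)) := by
  have a1 := dyadic_approx hy hD hs0 hs h hσ k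
  have a2 := dyadic_approx hy hD hs0 hs h hτ k
  have p2 : (0 : ℝ) < 2 ^ k := by positivity
  have hds : 0 ≤ D * s ^ k := by positivity
  have hle : D * s ^ k ≤ D * s ^ k / (1 - s) := by
    rw [le_div_iff₀ (by linarith)]
    nlinarith
  obtain ⟨i, hi⟩ : ∃ i : ℤ, i = ⌊2 ^ k * σ⌋ := ⟨_, rfl⟩
  have h1 : (i : ℝ) ≤ 2 ^ k * σ := by rw [hi]; exact Int.floor_le _
  have h2 : 2 ^ k * σ < (i : ℝ) + 1 := by rw [hi]; exact Int.lt_floor_add_one _
  have h4 : 2 ^ k * (τ - σ) ≤ 1 := by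
    have := mul_le_mul_of_nonneg_left hk p2.le
    rwa [one_div, inv_pow, mul_inv_cancel₀ p2.ne'] at this
  have h5 : 2 ^ k * σ ≤ 2 ^ k * τ := mul_le_mul_of_nonneg_left hst p2.le
  have h3 : ⌊2 ^ k * τ⌋ = i ∨ ⌊2 ^ k * τ⌋ = i + 1 := by
    have b1 : i ≤ ⌊2 ^ k * τ⌋ := by rw [Int.le_floor]; linarith
    have b2 : ⌊2 ^ k * τ⌋ < i + 2 := by rw [Int.floor_lt]; push_cast; linarith
    omega
  rw [← hi] at a1
  have a3 : |y (⌊2 ^ k * τ⌋ / 2 ^ k) - y (i / 2 ^ k)| ≤ D * s ^ k := by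
    rcases h3 with h3 | h3
    · rw [h3, sub_self, abs_zero]; exact hds
    · rw [h3]
      have hb : |(i : ℝ)| ≤ (j + 1) * 2 ^ k := by
        have t1 := abs_le.1 hσ
        have q1 : (1 : ℝ) ≤ 2 ^ k := one_le_pow₀ (by norm_num)
        have q2 : 2 ^ k * σ ≤ 2 ^ k * j := mul_le_mul_of_nonneg_left t1.2 p2.le
        have q3 : 2 ^ k * (-(j : ℝ)) ≤ 2 ^ k * σ := mul_le_mul_of_nonneg_left t1.1 p2.le
        rw [abs_le]
        constructor <;> nlinarith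
      have := h k i hb
      push_cast
      exact this
  have e : y τ - y σ = (y τ - y (⌊2 ^ k * τ⌋ / 2 ^ k)) +
      (y (⌊2 ^ k * τ⌋ / 2 ^ k) - y (i / 2 ^ k)) - (y σ - y (i / 2 ^ k)) := by ring
  rw [e]
  refine (abs_sub _ _).trans ?_
  have := abs_add_le (y τ - y (⌊2 ^ k * τ⌋ / 2 ^ k)) (y (⌊2 ^ k * τ⌋ / 2 ^ k) - y (i / 2 ^ k))
  linarith

/-- The locally Hoelder functions with given constants. -/
def HolF (γ M L : ℝ) : Set (ℝ → ℝ) :=
  {y | |y 0| ≤ M ∧ ∀ (j : ℕ) (σ τ : ℝ), |σ| ≤ j → |τ| ≤ j → |τ - σ| ≤ 1 →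
    |y τ - y σ| ≤ L * (j + 1) * |τ - σ| ^ γ}

/-- The locally Hoelder paths with given constants. -/
def Hol (γ M L : ℝ) : Set C(ℝ, ℝ) := {y | (y : ℝ → ℝ) ∈ HolF γ M L}

lemma closed_HolF (γ M L : ℝ) : IsClosed (HolF γ M L) := by
  unfold HolF
  simp only [ofPred_and, ofPred_forall]
  refine IsClosed.inter (isClosed_le (by fun_prop) continuous_const) ?_
  refine isClosed_iInter fun j => isClosed_iInter fun σ => isClosed_iInter fun τ =>
    isClosed_iInter fun _ => isClosed_iInter fun _ => isClosed_iInter fun _ => ?_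
  exact isClosed_le (by fun_prop) continuous_const

lemma closed_Hol (γ M L : ℝ) : IsClosed (Hol γ M L) :=
  (closed_HolF γ M L).preimage (continuous_pi fun t => continuous_eval_const t)

lemma HolF_bd {γ M L : ℝ} (hγ : 0 < γ) (hL : 0 ≤ L) {y : ℝ → ℝ} (hy : y ∈ HolF γ M L) (j : ℕ) :
    ∀ m : ℕ, m ≤ j → ∀ t : ℝ, |t| ≤ m → |y t - y 0| ≤ m * (L * (j + 1)) := by
  intro m
  induction m with
  | zero =>
    intro _ t ht
    have : t = 0 := by simpa using ht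
    simp [this]
  | succ m ih =>
    intro hm t ht
    have hm0 : (0 : ℝ) ≤ m := Nat.cast_nonneg m
    have hmj : (m : ℝ) + 1 ≤ j := by exact_mod_cast hm
    push_cast at ht ⊢
    have h1 : |t * (m / (m + 1))| ≤ m := by
      rw [abs_mul, abs_of_nonneg (by positivity : (0 : ℝ) ≤ m / (m + 1))]
      calc |t| * (m / (m + 1)) ≤ (m + 1) * (m / (m + 1)) :=
            mul_le_mul_of_nonneg_right ht (by positivity)
        _ = m := by field_simp
    have h2 : |t - t * (m / (m + 1))| ≤ 1 := by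
      have e : t - t * (m / (m + 1)) = t / (m + 1) := by field_simp; ring
      rw [e, abs_div, abs_of_pos (by positivity : (0 : ℝ) < m + 1), div_le_one (by positivity)]
      exact ht
    have h3 := ih (by omega) _ h1
    have h4 := hy.2 j (t * (m / (m + 1))) t (by linarith) (by linarith) h2
    have h5 : |t - t * (m / (m + 1))| ^ γ ≤ 1 := Real.rpow_le_one (abs_nonneg _) h2 hγ.le
    have h6 : L * (j + 1) * |t - t * (m / (m + 1))| ^ γ ≤ L * (j + 1) :=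
      mul_le_of_le_one_right (by positivity) h5
    have h7 := abs_add_le (y t - y (t * (m / (m + 1)))) (y (t * (m / (m + 1))) - y 0)
    rw [sub_add_sub_cancel] at h7
    linarith

lemma HolF_mod {γ M L : ℝ} (hγ : 0 < γ) (t : ℝ) {ε : ℝ} (hε : 0 < ε) :
    ∀ᶠ s in 𝓝 t, ∀ y ∈ HolF γ M L, dist (y t) (y s) < ε := by
  obtain ⟨j, hj⟩ := exists_nat_ge (|t| + 1)
  have hc : Continuous fun s : ℝ => L * (j + 1) * |t - s| ^ γ :=
    continuous_const.mul ((continuous_const.sub continuous_id).abs.rpow_const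
      fun _ => Or.inr hγ.le)
  have h0 : L * (j + 1) * |t - t| ^ γ < ε := by
    rw [sub_self, abs_zero, Real.zero_rpow hγ.ne', mul_zero]; exact hε
  have h1 : ∀ᶠ s in 𝓝 t, L * (j + 1) * |t - s| ^ γ < ε :=
    (hc.tendsto t).eventually_lt_const h0
  have h2 : ∀ᶠ s in 𝓝 t, |t - s| ≤ 1 := by
    filter_upwards [Metric.closedBall_mem_nhds t one_pos] with s hs
    rwa [Metric.mem_closedBall, dist_comm, Real.dist_eq] at hs
  filter_upwards [h1, h2] with s hs1 hs2 y hy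
  rw [Real.dist_eq]
  refine lt_of_le_of_lt (hy.2 j s t ?_ (by linarith) hs2) hs1
  have := abs_sub_abs_le_abs_sub s t
  rw [abs_sub_comm] at this
  linarith

lemma HolF_cont {γ M L : ℝ} (hγ : 0 < γ) {y : ℝ → ℝ} (hy : y ∈ HolF γ M L) : Continuous y := by
  refine continuous_iff_continuousAt.2 fun t => Metric.tendsto_nhds.2 fun ε hε => ?_
  filter_upwards [HolF_mod (M := M) (L := L) hγ t hε] with s hs
  rw [dist_comm]
  exact hs y hy

theorem compact_Hol {γ M L : ℝ} (hγ : 0 < γ) (hL : 0 ≤ L) : IsCompact (Hol γ M L) := by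
  refine ArzelaAscoli.isCompact_of_equicontinuous _ ?_ ?_
  · have e : ContinuousMap.toFun '' Hol γ M L = HolF γ M L := by
      ext y
      constructor
      · rintro ⟨z, hz, rfl⟩
        exact hz
      · intro hy
        exact ⟨⟨y, HolF_cont hγ hy⟩, hy, rfl⟩
    rw [e]
    refine IsCompact.of_isClosed_subset
      (isCompact_univ_pi fun t : ℝ => isCompact_Icc
        (a := -(M + ⌈|t|⌉₊ * (L * (⌈|t|⌉₊ + 1)))) (b := M + ⌈|t|⌉₊ * (L * (⌈|t|⌉₊ + 1))))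
      (closed_HolF γ M L) fun y hy t _ => ?_
    have h1 := HolF_bd hγ hL hy ⌈|t|⌉₊ ⌈|t|⌉₊ le_rfl t (Nat.le_ceil _)
    have h2 := abs_le.1 hy.1
    have h3 := abs_le.1 h1
    constructor <;> linarith
  · intro t
    rw [Metric.equicontinuousAt_iff_right]
    intro ε hε
    filter_upwards [HolF_mod (M := M) (L := L) hγ t hε] with s hs y
    exact hs _ y.2

/-- a path of `Hol` is Hoelder on every bounded interval -/
lemma Hol_holder {γ M L : ℝ} (hγ : 0 < γ) (hL : 0 ≤ L) {y : C(ℝ, ℝ)} (hy : y ∈ Hol γ M L)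
    (S : ℝ) : ∃ K : ℝ, ∀ σ τ : ℝ, |σ| ≤ S → |τ| ≤ S → |y τ - y σ| ≤ K * |τ - σ| ^ γ := by
  obtain ⟨j, hj⟩ := exists_nat_ge S
  refine ⟨L * (j + 1) + 2 * (j * (L * (j + 1))), fun σ τ hσ hτ => ?_⟩
  have p1 : 0 ≤ L * (j + 1) := by positivity
  have p2 : 0 ≤ 2 * (j * (L * (j + 1))) := by positivity
  have p3 : 0 ≤ |τ - σ| ^ γ := by positivity
  rcases le_total |τ - σ| 1 with h | h
  · refine (hy.2 j σ τ (hσ.trans hj) (hτ.trans hj) h).trans ?_
    exact mul_le_mul_of_nonneg_right (by linarith) p3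
  · have h1 := HolF_bd hγ hL hy j j le_rfl σ (hσ.trans hj)
    have h2 := HolF_bd hγ hL hy j j le_rfl τ (hτ.trans hj)
    have h3 : 1 ≤ |τ - σ| ^ γ := Real.one_le_rpow h hγ.le
    have h4 := abs_sub (y τ - y 0) (y σ - y 0)
    rw [sub_sub_sub_cancel_right] at h4
    nlinarith

lemma succ_pow_le {s : ℝ} (hs0 : 0 ≤ s) (hs : s < 1) (k : ℕ) : (k + 1) * s ^ k ≤ 1 / (1 - s) := by
  have h1 : ∑ i ∈ Finset.range (k + 1), s ^ k ≤ ∑ i ∈ Finset.range (k + 1), s ^ i :=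
    Finset.sum_le_sum fun i hi =>
      pow_le_pow_of_le_one hs0 hs.le (Nat.lt_succ_iff.1 (Finset.mem_range.1 hi))
  rw [Finset.sum_const, Finset.card_range, nsmul_eq_mul] at h1
  push_cast at h1
  refine h1.trans ?_
  rw [one_div]
  exact ((summable_geometric_of_lt_one hs0 hs).sum_le_tsum _ fun i _ => by positivity).trans
    (tsum_geometric_of_lt_one hs0 hs).le

/-- from the dyadic increments to `Hol` -/
lemma mem_Hol {γ M : ℝ} (hγ : 0 < γ) (hM : 0 ≤ M) {y : C(ℝ, ℝ)} (h0 : |y 0| ≤ M)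
    (h : ∀ (j k : ℕ) (i : ℤ), |(i : ℝ)| ≤ (j + 1) * 2 ^ k →
      |y ((i + 1) / 2 ^ k) - y (i / 2 ^ k)| ≤ M * (j + k + 1) * ((1 / 2 : ℝ) ^ k) ^ (2 * γ)) :
    y ∈ Hol γ M (M * (3 * 2 ^ γ / (1 - (1 / 2 : ℝ) ^ γ) ^ 2)) := by
  obtain ⟨s, hsd⟩ : ∃ s : ℝ, s = (1 / 2 : ℝ) ^ γ := ⟨_, rfl⟩
  have hs0 : 0 < s := by rw [hsd]; positivity
  have hs : s < 1 := by rw [hsd]; exact Real.rpow_lt_one (by norm_num) (by norm_num) hγ
  have hpow : ∀ k : ℕ, ((1 / 2 : ℝ) ^ k) ^ γ = s ^ k := by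
    intro k
    rw [hsd, ← Real.rpow_natCast, ← Real.rpow_mul (by norm_num), mul_comm,
      Real.rpow_mul (by norm_num), Real.rpow_natCast]
  have h1s : 0 < 1 - s := by linarith
  rw [← hsd]
  refine ⟨h0, fun j σ τ hσ hτ hd => ?_⟩
  have hD : 0 ≤ M * (j + 1) / (1 - s) := by positivity
  have h' : ∀ (k : ℕ) (i : ℤ), |(i : ℝ)| ≤ (j + 1) * 2 ^ k →
      |y ((i + 1) / 2 ^ k) - y (i / 2 ^ k)| ≤ M * (j + 1) / (1 - s) * s ^ k := by
    intro k i hi
    refine (h j k i hi).trans ?_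
    have e : ((1 / 2 : ℝ) ^ k) ^ (2 * γ) = s ^ k * s ^ k := by
      rw [two_mul, Real.rpow_add (by positivity), hpow]
    rw [e]
    have q1 := succ_pow_le hs0.le hs k
    have q2 : (j : ℝ) + k + 1 ≤ (j + 1) * (k + 1) := by
      have : (0 : ℝ) ≤ j * k := by positivity
      linarith
    have q3 : 0 ≤ s ^ k := by positivity
    calc M * (j + k + 1) * (s ^ k * s ^ k) ≤ M * ((j + 1) * (k + 1)) * (s ^ k * s ^ k) := by
          gcongr
      _ = M * (j + 1) * ((k + 1) * s ^ k) * s ^ k := by ring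
      _ ≤ M * (j + 1) * (1 / (1 - s)) * s ^ k := by gcongr
      _ = _ := by ring
  have key : ∀ σ τ : ℝ, |σ| ≤ j → |τ| ≤ j → σ < τ → τ - σ ≤ 1 →
      |y τ - y σ| ≤ M * (3 * 2 ^ γ / (1 - s) ^ 2) * (j + 1) * (τ - σ) ^ γ := by
    intro σ τ hσ hτ hlt hd
    obtain ⟨k, hk1, hk2⟩ := exists_nat_pow_near_of_lt_one (sub_pos.2 hlt) hd
      (by norm_num : (0 : ℝ) < 1 / 2) (by norm_num)
    refine (dyadic_pair y.continuous hD hs0.le hs h' hσ hτ hlt.le hk2).trans ?_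
    have q1 : s ^ k ≤ 2 ^ γ * (τ - σ) ^ γ := by
      rw [← hpow, ← Real.mul_rpow (by norm_num) (by linarith)]
      refine Real.rpow_le_rpow (by positivity) ?_ hγ.le
      rw [pow_succ] at hk1
      linarith
    calc 3 * (M * (j + 1) / (1 - s) * s ^ k / (1 - s)) ≤
          3 * (M * (j + 1) / (1 - s) * (2 ^ γ * (τ - σ) ^ γ) / (1 - s)) := by gcongr
      _ = _ := by field_simp
  rcases lt_trichotomy σ τ with hlt | heq | hlt
  · have e : |τ - σ| = τ - σ := abs_of_pos (sub_pos.2 hlt)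
    rw [e] at hd ⊢
    exact key σ τ hσ hτ hlt hd
  · rw [heq, sub_self, sub_self, abs_zero, Real.zero_rpow hγ.ne', mul_zero]
  · have e : |τ - σ| = σ - τ := by rw [abs_sub_comm]; exact abs_of_pos (sub_pos.2 hlt)
    rw [e] at hd ⊢
    rw [abs_sub_comm]
    exact key τ σ hτ hσ hlt hd

lemma union_geo {Ω : Type*} [MeasurableSpace Ω] (μ : Measure Ω) {A : ℕ → Set Ω} {b : ℝ}
    (hb : 0 ≤ b) (h : ∀ j, μ (A j) ≤ ENNReal.ofReal (b * (1 / 2) ^ j)) :
    μ (⋃ j, A j) ≤ ENNReal.ofReal (b * 2) := by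
  refine (measure_iUnion_le A).trans ((ENNReal.tsum_le_tsum h).trans (le_of_eq ?_))
  rw [← ENNReal.ofReal_tsum_of_nonneg (fun j => by positivity)
    (summable_geometric_two.mul_left b), tsum_mul_left, tsum_geometric_two]

/-- **The mass outside of the compact sets.** -/
theorem mass_Hol [MeasurableSpace C(ℝ, ℝ)] {γ c C M : ℝ} (hγ : 0 < γ) (hC : 0 ≤ C)
    (hM : 0 < M) (hcM : Real.exp (-(c * M)) ≤ 1 / 4) (Q : Measure C(ℝ, ℝ)) [IsFiniteMeasure Q]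
    (h0 : Q.real {y | M ≤ |y 0|} ≤ C / M ^ 2)
    (h1 : ∀ σ τ : ℝ, |τ - σ| ≤ 1 → σ ≠ τ → ∀ u : ℝ, 0 ≤ u →
      Q.real {y | u * |τ - σ| ^ (2 * γ) ≤ |y τ - y σ|} ≤ C * Real.exp (-(c * u))) :
    Q (Hol γ M (M * (3 * 2 ^ γ / (1 - (1 / 2 : ℝ) ^ γ) ^ 2)))ᶜ ≤
      ENNReal.ofReal (C / M ^ 2 + 12 * C * Real.exp (-(c * M))) := by
  obtain ⟨q, hq⟩ : ∃ q, q = Real.exp (-(c * M)) := ⟨_, rfl⟩
  have hq0 : 0 < q := by rw [hq]; exact Real.exp_pos _
  rw [← hq] at hcM ⊢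
  obtain ⟨B, hB⟩ : ∃ B : ℕ → ℕ → ℤ → Set C(ℝ, ℝ), B = fun (j k : ℕ) (i : ℤ) =>
      {y | M * (j + k + 1) * ((1 / 2 : ℝ) ^ k) ^ (2 * γ) ≤
        |y ((i + 1) / 2 ^ k) - y (i / 2 ^ k)|} := ⟨_, rfl⟩
  have hsub : (Hol γ M (M * (3 * 2 ^ γ / (1 - (1 / 2 : ℝ) ^ γ) ^ 2)))ᶜ ⊆ {y | M ≤ |y 0|} ∪
      ⋃ j : ℕ, ⋃ k : ℕ, ⋃ i ∈ Finset.Icc (-(((j : ℤ) + 1) * 2 ^ k)) (((j : ℤ) + 1) * 2 ^ k),
        B j k i := by
    intro y hy
    by_contra hcon
    apply hy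
    simp only [mem_union, mem_ofPred_eq, mem_iUnion, not_or, not_le, not_exists, hB] at hcon
    refine mem_Hol hγ hM.le hcon.1.le fun j k i hi => (hcon.2 j k i ?_).le
    rw [Finset.mem_Icc, ← abs_le]
    have : ((|i| : ℤ) : ℝ) ≤ ((((j : ℤ) + 1) * 2 ^ k : ℤ) : ℝ) := by
      push_cast
      exact hi
    exact_mod_cast this
  have hBm : ∀ j k i, Q (B j k i) ≤ ENNReal.ofReal (C * q ^ (j + k + 1)) := by
    intro j k i
    have p2 : (0 : ℝ) < 2 ^ k := by positivity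
    have e : ((i : ℝ) + 1) / 2 ^ k - i / 2 ^ k = (1 / 2) ^ k := by
      rw [one_div, inv_pow]; field_simp; ring
    have e2 : |((i : ℝ) + 1) / 2 ^ k - i / 2 ^ k| = (1 / 2) ^ k := by
      rw [e, abs_of_pos (by positivity)]
    have h2 := h1 (i / 2 ^ k) ((i + 1) / 2 ^ k)
      (by rw [e2]; exact pow_le_one₀ (by norm_num) (by norm_num))
      (by
        intro hh
        have : (0 : ℝ) < (1 / 2) ^ k := by positivity
        rw [← e, ← hh, sub_self] at this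
        exact lt_irrefl _ this)
      (M * (j + k + 1)) (by positivity)
    rw [e2] at h2
    have e3 : Real.exp (-(c * (M * (j + k + 1)))) = q ^ (j + k + 1) := by
      rw [hq, ← Real.exp_nat_mul]
      congr 1
      push_cast
      ring
    rw [e3] at h2
    rw [hB]
    exact (ENNReal.le_ofReal_iff_toReal_le (measure_ne_top _ _) (by positivity)).2 h2
  have hjk : ∀ j k : ℕ,
      Q (⋃ i ∈ Finset.Icc (-(((j : ℤ) + 1) * 2 ^ k)) (((j : ℤ) + 1) * 2 ^ k), B j k i) ≤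
        ENNReal.ofReal (3 * C * q * (1 / 2) ^ j * (1 / 2) ^ k) := by
    intro j k
    refine (measure_biUnion_finset_le _ _).trans ?_
    refine (Finset.sum_le_sum fun i _ => hBm j k i).trans ?_
    rw [Finset.sum_const, nsmul_eq_mul, ← ENNReal.ofReal_natCast,
      ← ENNReal.ofReal_mul (Nat.cast_nonneg _)]
    refine ENNReal.ofReal_le_ofReal ?_
    have hc : ((Finset.Icc (-(((j : ℤ) + 1) * 2 ^ k)) (((j : ℤ) + 1) * 2 ^ k)).card : ℝ) ≤
        3 * (2 ^ j * 2 ^ k) := by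
      have e1 : (((Finset.Icc (-(((j : ℤ) + 1) * 2 ^ k)) (((j : ℤ) + 1) * 2 ^ k)).card : ℤ)) =
          ((j : ℤ) + 1) * 2 ^ k + 1 - -(((j : ℤ) + 1) * 2 ^ k) := by
        refine Int.card_Icc_of_le _ _ ?_
        have : (0 : ℤ) ≤ ((j : ℤ) + 1) * 2 ^ k := by positivity
        linarith
      have e2 : ((Finset.Icc (-(((j : ℤ) + 1) * 2 ^ k)) (((j : ℤ) + 1) * 2 ^ k)).card : ℝ) =
          ((j : ℝ) + 1) * 2 ^ k + 1 - -(((j : ℝ) + 1) * 2 ^ k) := by
        exact_mod_cast e1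
      rw [e2]
      have q1 : (j : ℝ) + 1 ≤ 2 ^ j := by exact_mod_cast Nat.lt_two_pow_self
      have q2 : (1 : ℝ) ≤ 2 ^ k := one_le_pow₀ (by norm_num)
      have q3 : (1 : ℝ) ≤ 2 ^ j := one_le_pow₀ (by norm_num)
      have q4 : ((j : ℝ) + 1) * 2 ^ k ≤ 2 ^ j * 2 ^ k :=
        mul_le_mul_of_nonneg_right q1 (by positivity)
      nlinarith
    have q5 : ∀ m : ℕ, 2 ^ m * q ^ m ≤ (1 / 2 : ℝ) ^ m := by
      intro m
      rw [← mul_pow]
      exact pow_le_pow_left₀ (by positivity) (by linarith) m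
    calc _ ≤ 3 * (2 ^ j * 2 ^ k) * (C * q ^ (j + k + 1)) :=
          mul_le_mul_of_nonneg_right hc (by positivity)
      _ = 3 * C * q * (2 ^ j * q ^ j) * (2 ^ k * q ^ k) := by ring
      _ ≤ _ := by
          have := q5 j
          have := q5 k
          gcongr
  have hj : ∀ j : ℕ, Q (⋃ k : ℕ,
      ⋃ i ∈ Finset.Icc (-(((j : ℤ) + 1) * 2 ^ k)) (((j : ℤ) + 1) * 2 ^ k), B j k i) ≤
        ENNReal.ofReal (6 * C * q * (1 / 2) ^ j) := by
    intro j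
    refine (union_geo Q (b := 3 * C * q * (1 / 2) ^ j) (by positivity) (hjk j)).trans
      (le_of_eq ?_)
    congr 1
    ring
  have hall := union_geo Q (b := 6 * C * q) (by positivity) hj
  refine (measure_mono hsub).trans ((measure_union_le _ _).trans ?_)
  rw [ENNReal.ofReal_add (by positivity) (by positivity)]
  refine add_le_add ((ENNReal.le_ofReal_iff_toReal_le (measure_ne_top _ _)
    (by positivity)).2 h0) (hall.trans (le_of_eq ?_))
  congr 1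
  ring

/-- The two tail conditions. -/
def Tails [MeasurableSpace C(ℝ, ℝ)] (γ c C : ℝ) (Q : Measure C(ℝ, ℝ)) : Prop :=
  (∀ M : ℝ, 0 < M → Q.real {y | M ≤ |y 0|} ≤ C / M ^ 2) ∧
    ∀ σ τ : ℝ, |τ - σ| ≤ 1 → σ ≠ τ → ∀ u : ℝ, 0 ≤ u →
      Q.real {y | u * |τ - σ| ^ (2 * γ) ≤ |y τ - y σ|} ≤ C * Real.exp (-(c * u))

/-- one compact set for every level -/
theorem exists_Hol [MeasurableSpace C(ℝ, ℝ)] {γ c C : ℝ} (hγ : 0 < γ) (hc : 0 < c) (hC : 0 ≤ C)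
    {ε : ENNReal} (hε : 0 < ε) : ∃ M L : ℝ, 0 ≤ L ∧ ∀ Q : Measure C(ℝ, ℝ), IsFiniteMeasure Q →
      Tails γ c C Q → Q (Hol γ M L)ᶜ ≤ ε := by
  have t1 : Tendsto (fun M : ℝ => Real.exp (-(c * M))) atTop (𝓝 0) :=
    Real.tendsto_exp_neg_atTop_nhds_zero.comp (tendsto_id.const_mul_atTop hc)
  have t2 : Tendsto (fun M : ℝ => C / M ^ 2) atTop (𝓝 0) :=
    tendsto_const_nhds.div_atTop (tendsto_pow_atTop two_ne_zero)
  have t3 : Tendsto (fun M : ℝ => ENNReal.ofReal (C / M ^ 2 + 12 * C * Real.exp (-(c * M))))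
      atTop (𝓝 0) := by
    have := ENNReal.tendsto_ofReal (t2.add (t1.const_mul (12 * C)))
    simpa using this
  obtain ⟨M, h1, h2, h3⟩ := ((t3.eventually_le_const hε).and
    ((t1.eventually_le_const (show (0 : ℝ) < 1 / 4 by norm_num)).and
      (eventually_gt_atTop 0))).exists
  refine ⟨M, M * (3 * 2 ^ γ / (1 - (1 / 2 : ℝ) ^ γ) ^ 2), by positivity, fun Q _ hQ => ?_⟩
  exact (mass_Hol hγ hC h3 h2 Q (hQ.1 M h3) hQ.2).trans h1

theorem tight_of [MeasurableSpace C(ℝ, ℝ)] {γ c C : ℝ} (hγ : 0 < γ) (hc : 0 < c) (hC : 0 ≤ C)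
    {S : Set (Measure C(ℝ, ℝ))} (hS : ∀ Q ∈ S, IsFiniteMeasure Q ∧ Tails γ c C Q) :
    IsTightMeasureSet S := by
  refine isTightMeasureSet_iff_exists_isCompact_measure_compl_le.2 fun ε hε => ?_
  obtain ⟨M, L, hL, h⟩ := exists_Hol hγ hc hC hε
  exact ⟨Hol γ M L, compact_Hol hγ hL, fun Q hQ => h Q (hS Q hQ).1 (hS Q hQ).2⟩

/-- the limits of laws with uniform tails live on the locally Hoelder paths -/
theorem holder_lim [MeasurableSpace C(ℝ, ℝ)] [BorelSpace C(ℝ, ℝ)] {γ c C : ℝ} (hγ : 0 < γ)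
    (hc : 0 < c) (hC : 0 ≤ C) {P : ℕ → ProbabilityMeasure C(ℝ, ℝ)}
    {Q : ProbabilityMeasure C(ℝ, ℝ)} (hP : ∀ᶠ k in atTop, Tails γ c C (P k))
    (hl : Tendsto P atTop (𝓝 Q)) :
    ∀ᵐ y ∂(Q : Measure C(ℝ, ℝ)), ∀ S : ℝ, ∃ K : ℝ, ∀ σ τ : ℝ, |σ| ≤ S → |τ| ≤ S →
      |y τ - y σ| ≤ K * |τ - σ| ^ γ := by
  rw [ae_iff]
  refine le_antisymm ?_ bot_le
  refine ENNReal.le_of_forall_pos_le_add fun ε hε _ => ?_
  rw [zero_add]
  obtain ⟨M, L, hL, h⟩ := exists_Hol hγ hc hC (ε := ε) (by exact_mod_cast hε)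
  have h1 : (Q : Measure C(ℝ, ℝ)) (Hol γ M L)ᶜ ≤
      liminf (fun k => (P k : Measure C(ℝ, ℝ)) (Hol γ M L)ᶜ) atTop :=
    ProbabilityMeasure.le_liminf_measure_open_of_tendsto hl (closed_Hol γ M L).isOpen_compl
  have h2 : liminf (fun k => (P k : Measure C(ℝ, ℝ)) (Hol γ M L)ᶜ) atTop ≤ ε := by
    refine liminf_le_of_frequently_le' (Eventually.frequently ?_)
    filter_upwards [hP] with k hk
    exact h _ inferInstance hk
  refine le_trans (measure_mono fun y hy => ?_) (h1.trans h2)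
  intro hyy
  exact hy fun S => Hol_holder hγ hL hyy S

end Vale.Agent.N146.Proc
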