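import Vale.Agent.P146.Defs
import Vale.Agent.P146.H196.UDefs

/-!
# P146: the free energy along a rotation of the disorder, as a random continuous path
-/

open MeasureTheory ProbabilityTheory

namespace Vale.Agent.N146.Proc

open Vale.Agent.P146 Vale.Agent.P146.H196

/-- The disorder `cos θ * g + sin θ * g'`, for a pair `w = (g, g')` of disorders. -/
noncomputable def rot (n : ℕ) (θ : ℝ) (w : (Pair n → ℝ) × (Pair n → ℝ)) : Pair n → ℝ :=
  fun p => Real.cos θ * w.1 p + Real.sin θ * w.2 p

lemma cont_free (n : ℕ) (b : ℝ) : Continuous (freeEnergy n b) := by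
  unfold freeEnergy
  refine Continuous.log ?_ fun g =>
    (Finset.sum_pos (fun _ _ => Real.exp_pos _) Finset.univ_nonempty).ne'
  unfold partitionFn hamiltonian
  fun_prop

lemma cont_rot (n : ℕ) :
    Continuous fun q : ℝ × ((Pair n → ℝ) × (Pair n → ℝ)) => rot n q.1 q.2 := by
  unfold rot
  fun_prop

/-- The path `τ ↦ (F_n (cos θ * g + sin θ * g') - E F_n) / n ^ (1/6)`, `θ = τ / n ^ (1/6)`. -/
noncomputable def path (n : ℕ) (b : ℝ) (w : (Pair n → ℝ) × (Pair n → ℝ)) : C(ℝ, ℝ) where
  toFun τ := (freeEnergy n b (rot n (τ / (n : ℝ) ^ (1 / 6 : ℝ)) w) - meanF n b) /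
    (n : ℝ) ^ (1 / 6 : ℝ)
  continuous_toFun := (((cont_free n b).comp ((cont_rot n).comp
    ((continuous_id.div_const _).prodMk continuous_const))).sub continuous_const).div_const _

lemma cont_path (n : ℕ) (b : ℝ) : Continuous (path n b) :=
  ContinuousMap.continuous_of_continuous_uncurry _
    ((((cont_free n b).comp ((cont_rot n).comp
      ((continuous_snd.div_const _).prodMk continuous_fst))).sub continuous_const).div_const _)

/-- The law of the path, for two independent disorders `g`, `g'`. -/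
noncomputable def lawP [MeasurableSpace C(ℝ, ℝ)] [BorelSpace C(ℝ, ℝ)] (b : ℝ) (n : ℕ) :
    ProbabilityMeasure C(ℝ, ℝ) :=
  ⟨((disorder n).prod (disorder n)).map (path n b),
    haveI : IsProbabilityMeasure (disorder n) := by unfold disorder; infer_instance
    Measure.isProbabilityMeasure_map (cont_path n b).measurable.aemeasurable⟩

/-- The shifted path `τ ↦ y (τ + s)`. -/
def shift (s : ℝ) (y : C(ℝ, ℝ)) : C(ℝ, ℝ) := y.comp ⟨fun τ => τ + s, continuous_add_const s⟩

/-- The reversed path `τ ↦ y (-τ)`. -/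
def rev (y : C(ℝ, ℝ)) : C(ℝ, ℝ) := y.comp ⟨fun τ => -τ, continuous_neg⟩

end Vale.Agent.N146.Proc
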