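import Vale.Agent.P146.H605.Rot
import Vale.Agent.P146.H863.PLG

/-!
# P146, process limit: two Gaussian vectors (helper75)

`map_lin2`: the law of `(a u + b v, c u + d v)` depends only on the Gram matrix.
`pair_lc`: for two gauge invariant models on a common Gaussian space, the function
`a ↦ E min (1, exp (F' - F - a))` is log-concave.
`tail_of_lc`: then `F' - F` has an exponential upper tail at the scale `1 + E |F' - F|`.
-/

open MeasureTheory ProbabilityTheory Set

namespace Vale.Agent.N146.Proc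

open Vale.Agent.P146

/-- the standard Gaussian measure -/
noncomputable abbrev gam (ι : Type*) [Fintype ι] : Measure (ι → ℝ) :=
  Measure.pi fun _ => gaussianReal 0 1

section lin

variable {ι : Type*} [Fintype ι]

/-- `(u, v) ↦ (a u + b v, c u + d v)` -/
noncomputable def lin2 (ι : Type*) (a b c d : ℝ) : (ι → ℝ) × (ι → ℝ) →L[ℝ] (ι → ℝ) × (ι → ℝ) :=
  ContinuousLinearMap.prod
    (a • ContinuousLinearMap.fst ℝ (ι → ℝ) (ι → ℝ) + b • ContinuousLinearMap.snd ℝ (ι → ℝ) (ι → ℝ))
    (c • ContinuousLinearMap.fst ℝ (ι → ℝ) (ι → ℝ) + d • ContinuousLinearMap.snd ℝ (ι → ℝ) (ι → ℝ))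

omit [Fintype ι] in
lemma lin2_apply (a b c d : ℝ) (w : (ι → ℝ) × (ι → ℝ)) :
    lin2 ι a b c d w = (fun i => a * w.1 i + b * w.2 i, fun i => c * w.1 i + d * w.2 i) := rfl

lemma char_lin2 [DecidableEq ι] (a b c d : ℝ) (L : StrongDual ℝ ((ι → ℝ) × (ι → ℝ))) :
    charFunDual (((gam ι).prod (gam ι)).map (lin2 ι a b c d)) L =
      Complex.exp (-((∑ i, ((a ^ 2 + b ^ 2) * L (Pi.single i 1, 0) ^ 2 +
        2 * (a * c + b * d) * (L (Pi.single i 1, 0) * L (0, Pi.single i 1)) +
        (c ^ 2 + d ^ 2) * L (0, Pi.single i 1) ^ 2) : ℝ) : ℂ) / 2) := by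
  rw [charFunDual_map, charFunDual_prod, H605.charFunDual_std_pi, H605.charFunDual_std_pi,
    ← Complex.exp_add]
  congr 1
  have b1 : ∀ i : ι, ((L.comp (lin2 ι a b c d)).comp
        (ContinuousLinearMap.inl ℝ _ _)) (Pi.single i 1) =
      a * L (Pi.single i 1, 0) + c * L (0, Pi.single i 1) := by
    intro i
    rw [← H605.sL, ← H605.sR, ← H605.split]
    simp [lin2]
  have b2 : ∀ i : ι, ((L.comp (lin2 ι a b c d)).comp
        (ContinuousLinearMap.inr ℝ _ _)) (Pi.single i 1) =
      b * L (Pi.single i 1, 0) + d * L (0, Pi.single i 1) := by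
    intro i
    rw [← H605.sL, ← H605.sR, ← H605.split]
    simp [lin2]
  simp only [b1, b2]
  rw [← add_div, ← neg_add, ← Finset.sum_add_distrib]
  push_cast
  congr 2
  refine Finset.sum_congr rfl fun i _ => ?_
  ring

theorem map_lin2 {a b c d a' b' c' d' : ℝ} (h1 : a ^ 2 + b ^ 2 = a' ^ 2 + b' ^ 2)
    (h2 : a * c + b * d = a' * c' + b' * d') (h3 : c ^ 2 + d ^ 2 = c' ^ 2 + d' ^ 2) :
    ((gam ι).prod (gam ι)).map (lin2 ι a b c d) =
      ((gam ι).prod (gam ι)).map (lin2 ι a' b' c' d') := by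
  classical
  refine Measure.ext_of_charFunDual ?_
  ext L
  rw [char_lin2, char_lin2, h1, h2, h3]

theorem mp_lin2 {a b c d : ℝ} (h1 : a ^ 2 + b ^ 2 = 1) (h2 : a * c + b * d = 0)
    (h3 : c ^ 2 + d ^ 2 = 1) :
    MeasurePreserving (lin2 ι a b c d) ((gam ι).prod (gam ι)) ((gam ι).prod (gam ι)) := by
  refine ⟨(lin2 ι a b c d).continuous.measurable, ?_⟩
  rw [map_lin2 (a' := 1) (b' := 0) (c' := 0) (d' := 1) (by rw [h1]; norm_num)
    (by rw [h2]; norm_num) (by rw [h3]; norm_num)]
  have e : (lin2 ι 1 0 0 1 : (ι → ℝ) × (ι → ℝ) → (ι → ℝ) × (ι → ℝ)) = id := by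
    funext w
    rw [lin2_apply]
    simp
  rw [e, Measure.map_id]

end lin

section lc

variable {κ κ' : Type*} [Fintype κ] [Fintype κ']

theorem gauss2 (φ : ℝ → (κ → ℝ) × (κ' → ℝ) → ℝ)
    (hφ : ConcaveOn ℝ univ (fun p : ℝ × ((κ → ℝ) × (κ' → ℝ)) => φ p.1 p.2))
    (hm : ∀ x, Measurable (φ x)) (hg : ∀ x w, φ x w ≤ 0) :
    ConcaveOn ℝ univ (fun x => Real.log (∫ w, Real.exp (φ x w) ∂((gam κ).prod (gam κ')))) := by
  have hmp := measurePreserving_sumPiEquivProdPi (X := fun _ : κ ⊕ κ' => ℝ)
    (fun _ => gaussianReal 0 1)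
  obtain ⟨T, hT⟩ : ∃ T, T = MeasurableEquiv.sumPiEquivProdPi (fun _ : κ ⊕ κ' => ℝ) := ⟨_, rfl⟩
  have hTl : ∀ (a b : ℝ) (g g' : κ ⊕ κ' → ℝ), T (a • g + b • g') = a • T g + b • T g' := by
    intro a b g g'
    rw [hT]
    rfl
  rw [← hT] at hmp
  have hint : ∀ x, ∫ w, Real.exp (φ x w) ∂((gam κ).prod (gam κ')) =
      ∫ g, Real.exp (φ x (T g)) ∂(gam (κ ⊕ κ')) := fun x =>
    (hmp.integral_comp (MeasurableEquiv.measurableEmbedding _) (fun w => Real.exp (φ x w))).symm
  have h := H863.PL.gauss (fun x g => φ x (T g)) ?_ (fun x => (hm x).comp T.measurable)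
    (fun x => ⟨0, 0, fun g => by simpa using hg x (T g)⟩)
  · refine h.congr fun x _ => ?_
    simp only
    rw [hint x]
  · refine ⟨convex_univ, fun p _ q _ a b ha hb hab => ?_⟩
    have h := hφ.2 (mem_univ (p.1, T p.2)) (mem_univ (q.1, T q.2)) ha hb hab
    simp only [Prod.smul_fst, Prod.smul_snd, Prod.fst_add, Prod.snd_add] at h ⊢
    rw [hTl]
    exact h

/-- **Log-concavity for a pair of gauge invariant models.** -/
theorem pair_lc {S : Type*} [Fintype S] (h : S → (κ → ℝ) × (κ' → ℝ) → ℝ) (s0 : S)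
    {F F' : (κ → ℝ) × (κ' → ℝ) → ℝ} (hF' : ∀ w, Real.exp (F' w) = ∑ s, Real.exp (h s w))
    (hc0 : ConcaveOn ℝ univ (h s0)) (hc : ConvexOn ℝ univ F) (hc' : ConvexOn ℝ univ F')
    (mh : ∀ s, Measurable (h s)) (mF : Measurable F) (mF' : Measurable F')
    (φ : S → (κ → ℝ) × (κ' → ℝ) → (κ → ℝ) × (κ' → ℝ))
    (hφ : ∀ s, MeasurePreserving (φ s) ((gam κ).prod (gam κ')) ((gam κ).prod (gam κ')))
    (h1 : ∀ s w, F (φ s w) = F w) (h2 : ∀ s w, F' (φ s w) = F' w)
    (h3 : ∀ s w, h s0 (φ s w) = h s w) :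
    ConcaveOn ℝ univ (fun a => Real.log
      (∫ w, min 1 (Real.exp (F' w - F w - a)) ∂((gam κ).prod (gam κ')))) := by
  have hle : ∀ s w, h s w ≤ F' w := by
    intro s w
    rw [← Real.exp_le_exp, hF']
    exact Finset.single_le_sum (f := fun s => Real.exp (h s w)) (fun _ _ => (Real.exp_pos _).le)
      (Finset.mem_univ s)
  obtain ⟨ψ, hψ⟩ : ∃ ψ : S → ℝ → (κ → ℝ) × (κ' → ℝ) → ℝ,
      ψ = fun s a w => h s w + min (-F' w) (-F w - a) := ⟨_, rfl⟩
  have hψ0 : ∀ s a w, ψ s a w ≤ 0 := by
    intro s a w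
    have := min_le_left (-F' w) (-F w - a)
    have := hle s w
    simp only [hψ]
    linarith
  have hψm : ∀ s a, Measurable (ψ s a) := by
    intro s a
    rw [hψ]
    exact (mh s).add (mF'.neg.min (mF.neg.sub_const a))
  have hint : ∀ s a, Integrable (fun w => Real.exp (ψ s a w)) ((gam κ).prod (gam κ')) := by
    intro s a
    refine Integrable.of_bound (C := 1) (hψm s a).exp.aestronglyMeasurable
      (Filter.Eventually.of_forall fun w => ?_)
    rw [Real.norm_eq_abs, abs_of_pos (Real.exp_pos _), Real.exp_le_one_iff]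
    exact hψ0 s a w
  have hconc : ConcaveOn ℝ univ (fun p : ℝ × ((κ → ℝ) × (κ' → ℝ)) => ψ s0 p.1 p.2) := by
    refine ⟨convex_univ, fun p _ q _ a b ha hb hab => ?_⟩
    have k0 := hc0.2 (mem_univ p.2) (mem_univ q.2) ha hb hab
    have k1 := hc.2 (mem_univ p.2) (mem_univ q.2) ha hb hab
    have k2 := hc'.2 (mem_univ p.2) (mem_univ q.2) ha hb hab
    have l1 := mul_le_mul_of_nonneg_left (min_le_left (-F' p.2) (-F p.2 - p.1)) ha
    have l2 := mul_le_mul_of_nonneg_left (min_le_left (-F' q.2) (-F q.2 - q.1)) hb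
    have l3 := mul_le_mul_of_nonneg_left (min_le_right (-F' p.2) (-F p.2 - p.1)) ha
    have l4 := mul_le_mul_of_nonneg_left (min_le_right (-F' q.2) (-F q.2 - q.1)) hb
    simp only [hψ, Prod.smul_fst, Prod.smul_snd, Prod.fst_add, Prod.snd_add, smul_eq_mul]
      at k0 k1 k2 ⊢
    have l5 : a * min (-F' p.2) (-F p.2 - p.1) + b * min (-F' q.2) (-F q.2 - q.1) ≤
        min (-F' (a • p.2 + b • q.2)) (-F (a • p.2 + b • q.2) - (a * p.1 + b * q.1)) := by
      refine le_min ?_ ?_ <;> linarith
    linarith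
  have hmain := gauss2 (ψ s0) hconc (hψm s0) (hψ0 s0)
  have hsum : ∀ a w, min 1 (Real.exp (F' w - F w - a)) = ∑ s, Real.exp (ψ s a w) := by
    intro a w
    simp only [hψ, Real.exp_add]
    rw [← Finset.sum_mul, ← hF', ← Real.exp_add]
    rcases le_total (-F' w) (-F w - a) with hh | hh
    · rw [min_eq_left hh, add_neg_cancel, Real.exp_zero, min_eq_left]
      rw [Real.one_le_exp_iff]
      linarith
    · rw [min_eq_right hh, min_eq_right]
      · congr 1
        ring
      · rw [Real.exp_le_one_iff]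
        linarith
  have heq : ∀ s a, ∫ w, Real.exp (ψ s a w) ∂((gam κ).prod (gam κ')) =
      ∫ w, Real.exp (ψ s0 a w) ∂((gam κ).prod (gam κ')) := by
    intro s a
    have hi := integral_map (μ := (gam κ).prod (gam κ')) (hφ s).measurable.aemeasurable
      (f := fun w => Real.exp (ψ s0 a w)) (hψm s0 a).exp.aestronglyMeasurable
    rw [(hφ s).map_eq] at hi
    rw [hi]
    refine integral_congr_ae (Filter.Eventually.of_forall fun w => ?_)
    simp only [hψ, h1, h2, h3]
  have hcard : (0 : ℝ) < Fintype.card S := by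
    exact_mod_cast Fintype.card_pos_iff.2 ⟨s0⟩
  have e : ∀ a, Real.log (∫ w, min 1 (Real.exp (F' w - F w - a)) ∂((gam κ).prod (gam κ'))) =
      Real.log (Fintype.card S) +
        Real.log (∫ w, Real.exp (ψ s0 a w) ∂((gam κ).prod (gam κ'))) := by
    intro a
    simp only [hsum]
    rw [integral_finsetSum _ fun s _ => hint s a, Finset.sum_congr rfl fun s _ => heq s a,
      Finset.sum_const, Finset.card_univ, nsmul_eq_mul,
      Real.log_mul hcard.ne' (integral_exp_pos (hint s0 a)).ne']
  simp only [e]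
  exact (concaveOn_const _ convex_univ).add hmain

end lc

/-- **The exponential tail from the log-concavity.** -/
theorem tail_of_lc {Ω : Type*} [MeasurableSpace Ω] {P : Measure Ω} [IsProbabilityMeasure P]
    {D : Ω → ℝ} (hD : Measurable D) (hi : Integrable D P) {s : ℝ} (hs : ∫ w, |D w| ∂P ≤ s)
    (hc : ConcaveOn ℝ univ (fun a => Real.log (∫ w, min 1 (Real.exp (D w - a)) ∂P))) (a : ℝ) :
    P.real {w | a ≤ D w} ≤ Real.exp 1 * Real.exp (-(a / (4 + 12 * s))) := by
  have hs0 : 0 ≤ s := (integral_nonneg fun w => abs_nonneg _).trans hs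
  obtain ⟨T, hT⟩ : ∃ T : ℝ → ℝ, T = fun a => ∫ w, min 1 (Real.exp (D w - a)) ∂P := ⟨_, rfl⟩
  have hint : ∀ a, Integrable (fun w => min 1 (Real.exp (D w - a))) P := by
    intro a
    refine Integrable.of_bound (C := 1)
      (measurable_const.min (hD.sub_const a).exp).aestronglyMeasurable
      (Filter.Eventually.of_forall fun w => ?_)
    rw [Real.norm_eq_abs, abs_of_pos (lt_min one_pos (Real.exp_pos _))]
    exact min_le_left _ _
  have hpos : ∀ a, 0 < T a := by
    intro a
    rw [hT]
    refine (integral_pos_iff_support_of_nonneg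
      (fun w => (lt_min one_pos (Real.exp_pos _)).le) (hint a)).2 ?_
    have : Function.support (fun w => min 1 (Real.exp (D w - a))) = univ :=
      eq_univ_of_forall fun w => (lt_min one_pos (Real.exp_pos _)).ne'
    rw [this]
    simp
  have hPT : ∀ a, P.real {w | a ≤ D w} ≤ T a := by
    intro a
    have hm : MeasurableSet {w | a ≤ D w} := measurableSet_le measurable_const hD
    rw [hT, ← integral_indicator_one hm]
    refine integral_mono ((integrable_const 1).indicator hm) (hint a) fun w => ?_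
    by_cases hw : w ∈ {w | a ≤ D w}
    · rw [indicator_of_mem hw]
      refine le_min le_rfl ?_
      simp only [Pi.one_apply]
      rw [Real.one_le_exp_iff]
      have : a ≤ D w := hw
      linarith
    · rw [indicator_of_notMem hw]
      exact (lt_min one_pos (Real.exp_pos _)).le
  have hab := hi.abs
  -- the lower point
  have k1 : 3 / 4 ≤ T (-(1 + 4 * s)) := by
    have h1 : ∫ w, (1 - |D w| / (1 + 4 * s)) ∂P ≤ T (-(1 + 4 * s)) := by
      rw [hT]
      refine integral_mono ((integrable_const 1).sub (hab.div_const _)) (hint _) fun w => ?_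
      simp only
      have q0 : 0 ≤ |D w| / (1 + 4 * s) := by positivity
      refine le_min (by linarith) ?_
      rcases le_total (1 + 4 * s) |D w| with hh | hh
      · have : 1 ≤ |D w| / (1 + 4 * s) := by rwa [le_div_iff₀ (by positivity), one_mul]
        linarith [Real.exp_pos (D w - -(1 + 4 * s))]
      · have : 1 ≤ Real.exp (D w - -(1 + 4 * s)) := by
          rw [Real.one_le_exp_iff]
          linarith [neg_abs_le (D w)]
        linarith
    rw [integral_sub (integrable_const 1) (hab.div_const _), integral_div] at h1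
    simp only [integral_const, probReal_univ, smul_eq_mul, one_mul] at h1
    have h2 : (∫ w, |D w| ∂P) / (1 + 4 * s) ≤ 1 / 4 := by
      rw [div_le_iff₀ (by positivity)]
      linarith
    linarith
  -- the upper point
  have k2 : T (3 + 8 * s) ≤ 3 / 16 := by
    have e3 : Real.exp (-3) ≤ 1 / 16 := by
      rw [Real.exp_neg, one_div]
      refine inv_anti₀ (by norm_num) ?_
      have h1 : Real.exp 3 = Real.exp 1 ^ 3 := by rw [← Real.exp_nat_mul]; norm_num
      have h2 := Real.exp_one_gt_d9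
      rw [h1]
      have h3 : (2.7 : ℝ) ^ 3 ≤ Real.exp 1 ^ 3 := pow_le_pow_left₀ (by norm_num) (by linarith) 3
      linarith [show (16 : ℝ) ≤ 2.7 ^ 3 by norm_num]
    rcases hs0.eq_or_lt with hz | hsp
    · have hz' : ∫ w, |D w| ∂P = 0 :=
        le_antisymm (by rw [hz]; exact hs) (integral_nonneg fun w => abs_nonneg _)
      have hae := (integral_eq_zero_iff_of_nonneg (fun w => abs_nonneg (D w)) hab).1 hz'
      have h1 : T (3 + 8 * s) ≤ ∫ _w, (1 / 16 : ℝ) ∂P := by
        rw [hT]
        refine integral_mono_ae (hint _) (integrable_const _) ?_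
        filter_upwards [hae] with w hw
        have : D w = 0 := by simpa using hw
        refine (min_le_right _ _).trans (le_trans (Real.exp_le_exp.2 ?_) e3)
        rw [this, ← hz]
        norm_num
      simp only [integral_const, probReal_univ, smul_eq_mul, one_mul] at h1
      linarith
    · have h1 : T (3 + 8 * s) ≤ ∫ w, (1 / 16 + |D w| / (8 * s)) ∂P := by
        rw [hT]
        refine integral_mono (hint _) ((integrable_const _).add (hab.div_const _)) fun w => ?_
        simp only
        have q0 : 0 ≤ |D w| / (8 * s) := by positivity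
        rcases le_total (8 * s) |D w| with hh | hh
        · have : 1 ≤ |D w| / (8 * s) := by rwa [le_div_iff₀ (by positivity), one_mul]
          linarith [min_le_left 1 (Real.exp (D w - (3 + 8 * s)))]
        · have : Real.exp (D w - (3 + 8 * s)) ≤ Real.exp (-3) :=
            Real.exp_le_exp.2 (by linarith [le_abs_self (D w)])
          linarith [min_le_right 1 (Real.exp (D w - (3 + 8 * s)))]
      rw [integral_add (integrable_const _) (hab.div_const _), integral_div (8 * s)] at h1
      simp only [integral_const, probReal_univ, smul_eq_mul, one_mul] at h1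
      have h2 : (∫ w, |D w| ∂P) / (8 * s) ≤ 1 / 8 := by
        rw [div_le_iff₀ (by positivity)]
        linarith
      linarith
  have hw : 0 < 4 + 12 * s := by positivity
  rw [← Real.exp_add]
  rcases le_or_gt a (3 + 8 * s) with ha | ha
  · refine measureReal_le_one.trans ?_
    rw [Real.one_le_exp_iff]
    have : a / (4 + 12 * s) ≤ 1 := by
      rw [div_le_one hw]
      linarith
    linarith
  · refine (hPT a).trans ?_
    have hc' : ConcaveOn ℝ univ (fun a => Real.log (T a)) := by rw [hT]; exact hc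
    have hsl := hc'.slope_anti_adjacent (mem_univ (-(1 + 4 * s))) (mem_univ a)
      (show -(1 + 4 * s) < 3 + 8 * s by linarith) ha
    have l1 : Real.log (T (3 + 8 * s)) - Real.log (T (-(1 + 4 * s))) ≤ -1 := by
      rw [← Real.log_div (hpos _).ne' (hpos _).ne', Real.log_le_iff_le_exp
        (div_pos (hpos _) (hpos _)), div_le_iff₀ (hpos _)]
      have h4 : 1 / 4 ≤ Real.exp (-1) := by
        rw [Real.exp_neg, one_div]
        refine inv_anti₀ (Real.exp_pos _) ?_
        linarith [Real.exp_one_lt_d9]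
      nlinarith [hpos (-(1 + 4 * s))]
    have l2 : Real.log (T (3 + 8 * s)) ≤ 0 :=
      Real.log_nonpos (hpos _).le (by linarith)
    have e1 : 3 + 8 * s - -(1 + 4 * s) = 4 + 12 * s := by ring
    rw [e1, div_le_iff₀ (by linarith)] at hsl
    have l3 : (Real.log (T (3 + 8 * s)) - Real.log (T (-(1 + 4 * s)))) / (4 + 12 * s) *
        (a - (3 + 8 * s)) ≤ -1 / (4 + 12 * s) * (a - (3 + 8 * s)) :=
      mul_le_mul_of_nonneg_right (div_le_div_of_nonneg_right l1 hw.le) (by linarith)
    have l4 : -1 / (4 + 12 * s) * (a - (3 + 8 * s)) ≤ 1 + -(a / (4 + 12 * s)) := by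
      have e2 : -1 / (4 + 12 * s) * (a - (3 + 8 * s)) =
          (3 + 8 * s) / (4 + 12 * s) + -(a / (4 + 12 * s)) := by
        field_simp
        ring
      have : (3 + 8 * s) / (4 + 12 * s) ≤ 1 := by
        rw [div_le_one hw]
        linarith
      linarith
    rw [← Real.log_le_iff_le_exp (hpos a)]
    linarith

end Vale.Agent.N146.Proc
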