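import Vale.Agent.N146.Proc.Defs
import Vale.Agent.N146.Proc.Gau
import Vale.Agent.N146.Proc.Chain
import Vale.Agent.P146.H863.GumLC
import Vale.Agent.P146.H605.Defs2

/-!
# P146, process limit: the increments of the free energy along the rotation (helper75)

`pair_tail`: the difference of the free energies at two angles has exponential tails at the scale
of its first moment.  `tails_lawP`: the tails of the increments of the path.
-/

open MeasureTheory ProbabilityTheory Set

namespace Vale.Agent.N146.Proc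

open Vale.Agent.P146 Vale.Agent.P146.H196 Vale.Agent.P146.H605

variable {n : ℕ} {b : ℝ}

/-- the law of two independent disorders -/
noncomputable abbrev PP (n : ℕ) : Measure ((Pair n → ℝ) × (Pair n → ℝ)) :=
  (disorder n).prod (disorder n)

lemma PP_eq (n : ℕ) : PP n = (gam (Pair n)).prod (gam (Pair n)) := rfl

/-- the rotation of the pair of disorders -/
noncomputable def Rot (n : ℕ) (α : ℝ) :
    (Pair n → ℝ) × (Pair n → ℝ) →L[ℝ] (Pair n → ℝ) × (Pair n → ℝ) :=
  lin2 (Pair n) (Real.cos α) (Real.sin α) (-Real.sin α) (Real.cos α)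

lemma mp_Rot (n : ℕ) (α : ℝ) : MeasurePreserving (Rot n α) (PP n) (PP n) :=
  mp_lin2 (Real.cos_sq_add_sin_sq α) (by ring) (by rw [neg_sq]; exact Real.sin_sq_add_cos_sq α)

lemma rot_Rot (θ α : ℝ) (w : (Pair n → ℝ) × (Pair n → ℝ)) :
    rot n θ (Rot n α w) = rot n (θ + α) w := by
  funext p
  simp only [rot, Rot, lin2_apply, Real.cos_add, Real.sin_add]
  ring

lemma rot_zero (w : (Pair n → ℝ) × (Pair n → ℝ)) : rot n 0 w = w.1 := by
  funext p
  simp [rot]

lemma cont_rot' (θ : ℝ) : Continuous (rot n θ) :=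
  (cont_rot n).comp (continuous_const.prodMk continuous_id)

lemma mp_rot (θ : ℝ) : MeasurePreserving (rot n θ) (PP n) (disorder n) := by
  have h := (measurePreserving_fst (μ := disorder n) (ν := disorder n)).comp (mp_Rot n θ)
  have e : (Prod.fst ∘ Rot n θ) = rot n θ := by
    funext w
    rw [Function.comp_apply, ← rot_zero, rot_Rot, zero_add]
  rwa [e] at h

lemma rot_lin (θ a c : ℝ) (w w' : (Pair n → ℝ) × (Pair n → ℝ)) :
    rot n θ (a • w + c • w') = a • rot n θ w + c • rot n θ w' := by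
  funext p
  simp only [rot, Prod.fst_add, Prod.snd_add, Prod.smul_fst, Prod.smul_snd, Pi.add_apply,
    Pi.smul_apply, smul_eq_mul]
  ring

lemma int_rot (θ : ℝ) {f : (Pair n → ℝ) → ℝ} (hf : Continuous f) :
    ∫ w, f (rot n θ w) ∂(PP n) = ∫ g, f g ∂(disorder n) := by
  rw [← (mp_rot (n := n) θ).map_eq, integral_map (mp_rot θ).measurable.aemeasurable
    hf.aestronglyMeasurable]

lemma memLp_free (n : ℕ) (b : ℝ) : MemLp (freeEnergy n b) 2 (disorder n) := by
  refine (memLp_two_iff_integrable_sq (cont_free n b).aestronglyMeasurable).2 ?_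
  obtain ⟨A, B, -, h⟩ := H863.free_abs n b
  have hi : Integrable (fun g => Real.exp |freeEnergy n b g|) (disorder n) :=
    H863.PL.integrable_of_gr (cont_free n b).abs.measurable ⟨A, B, h⟩
  refine (hi.const_mul 2).mono' ((cont_free n b).pow 2).aestronglyMeasurable
    (Filter.Eventually.of_forall fun g => ?_)
  rw [Real.norm_eq_abs, abs_of_nonneg (sq_nonneg _), ← sq_abs]
  have := Real.quadratic_le_exp_of_nonneg (abs_nonneg (freeEnergy n b g))
  linarith [abs_nonneg (freeEnergy n b g)]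

lemma memLp_rot (θ : ℝ) : MemLp (fun w => freeEnergy n b (rot n θ w)) 2 (PP n) :=
  (memLp_free n b).comp_measurePreserving (mp_rot θ)

/-- the law of the pair of disorders at two angles -/
lemma pair_law {θ θ' : ℝ} (h0 : 0 ≤ Real.cos (θ' - θ)) :
    (PP n).map (fun w => (rot n θ w, rot n θ' w)) =
      Measure.map (fun q : (Pair n → ℝ) × ((Pair n → ℝ) × (Pair n → ℝ)) =>
        (mixed n (Real.cos (θ' - θ)) q.1 q.2.1, mixed n (Real.cos (θ' - θ)) q.1 q.2.2))
      ((disorder n).prod ((disorder n).prod (disorder n))) := by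
  obtain ⟨t, ht⟩ : ∃ t, t = Real.cos (θ' - θ) := ⟨_, rfl⟩
  have h1 : t ≤ 1 := by rw [ht]; exact Real.cos_le_one _
  rw [← ht] at h0 ⊢
  have k1 := mp_pair (ι := Pair n) h0 h1
  have k2 := map_lin2 (ι := Pair n) (a := Real.cos θ) (b := Real.sin θ) (c := Real.cos θ')
    (d := Real.sin θ') (a' := 1) (b' := 0) (c' := t) (d' := Real.sqrt (1 - t ^ 2))
    (by rw [Real.cos_sq_add_sin_sq]; norm_num)
    (by rw [ht, Real.cos_sub]; ring)
    (by rw [Real.cos_sq_add_sin_sq, Real.sq_sqrt (by nlinarith)]; ring)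
  have e : (lin2 (Pair n) 1 0 t (Real.sqrt (1 - t ^ 2)) :
      (Pair n → ℝ) × (Pair n → ℝ) → (Pair n → ℝ) × (Pair n → ℝ)) =
      fun q => (q.1, fun i => t * q.1 i + Real.sqrt (1 - t ^ 2) * q.2 i) := by
    funext q
    rw [lin2_apply]
    simp
  rw [e] at k2
  exact k2.trans k1.symm

lemma cont_mixed (t : ℝ) : Continuous
    fun q : (Pair n → ℝ) × ((Pair n → ℝ) × (Pair n → ℝ)) =>
      (mixed n t q.1 q.2.1, mixed n t q.1 q.2.2) := by
  unfold mixed
  fun_prop

/-- the covariance at two angles -/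
lemma cov_rot {θ θ' : ℝ} (h0 : 0 ≤ Real.cos (θ' - θ)) :
    ∫ w, freeEnergy n b (rot n θ w) * freeEnergy n b (rot n θ' w) ∂(PP n) =
      crossCov n b (Real.cos (θ' - θ)) + meanF n b ^ 2 := by
  have hΦ : Continuous fun q : (Pair n → ℝ) × (Pair n → ℝ) =>
      freeEnergy n b q.1 * freeEnergy n b q.2 :=
    ((cont_free n b).comp continuous_fst).mul ((cont_free n b).comp continuous_snd)
  have hm : Measurable fun w => (rot n θ w, rot n θ' w) :=
    ((cont_rot' θ).prodMk (cont_rot' θ')).measurable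
  have hi : Integrable (fun w => freeEnergy n b (rot n θ w) * freeEnergy n b (rot n θ' w))
      (PP n) := (memLp_rot θ).integrable_mul (memLp_rot θ')
  have hi2 : Integrable (fun q : (Pair n → ℝ) × (Pair n → ℝ) =>
      freeEnergy n b q.1 * freeEnergy n b q.2) ((PP n).map fun w => (rot n θ w, rot n θ' w)) :=
    (integrable_map_measure hΦ.aestronglyMeasurable hm.aemeasurable).2 hi
  have e1 := integral_map (μ := PP n) hm.aemeasurable hΦ.aestronglyMeasurable
  rw [← e1]
  rw [pair_law h0] at hi2 ⊢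
  have hi3 : Integrable (fun q : (Pair n → ℝ) × ((Pair n → ℝ) × (Pair n → ℝ)) =>
      freeEnergy n b (mixed n (Real.cos (θ' - θ)) q.1 q.2.1) *
        freeEnergy n b (mixed n (Real.cos (θ' - θ)) q.1 q.2.2))
      ((disorder n).prod ((disorder n).prod (disorder n))) :=
    (integrable_map_measure hΦ.aestronglyMeasurable
      (cont_mixed _).measurable.aemeasurable).1 hi2
  rw [integral_map (cont_mixed _).measurable.aemeasurable hΦ.aestronglyMeasurable]
  simp only
  rw [integral_prod _ hi3]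
  unfold crossCov meanF
  rw [sub_add_cancel]
  refine integral_congr_ae ?_
  filter_upwards [hi3.prod_right_ae] with z hz
  exact integral_prod _ hz

lemma var_eq (n : ℕ) (b : ℝ) : Var[freeEnergy n b; disorder n] =
    ∫ g, freeEnergy n b g ^ 2 ∂(disorder n) - meanF n b ^ 2 :=
  variance_eq_sub (memLp_free n b)

lemma sq_rot (θ : ℝ) : ∫ w, freeEnergy n b (rot n θ w) ^ 2 ∂(PP n) =
    Var[freeEnergy n b; disorder n] + meanF n b ^ 2 := by
  rw [var_eq, sub_add_cancel]
  exact int_rot θ ((cont_free n b).pow 2)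

lemma mean_rot (θ : ℝ) : ∫ w, freeEnergy n b (rot n θ w) ∂(PP n) = meanF n b :=
  int_rot θ (cont_free n b)

/-- the centred covariance -/
lemma cov_rot' {θ θ' : ℝ} (h0 : 0 ≤ Real.cos (θ' - θ)) :
    ∫ w, (freeEnergy n b (rot n θ w) - meanF n b) * (freeEnergy n b (rot n θ' w) - meanF n b)
      ∂(PP n) = crossCov n b (Real.cos (θ' - θ)) := by
  have i1 := (memLp_rot (n := n) (b := b) θ).integrable one_le_two
  have i2 := (memLp_rot (n := n) (b := b) θ').integrable one_le_two
  have i3 : Integrable (fun w => freeEnergy n b (rot n θ w) * freeEnergy n b (rot n θ' w))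
      (PP n) := (memLp_rot θ).integrable_mul (memLp_rot θ')
  have e : ∀ w, (freeEnergy n b (rot n θ w) - meanF n b) *
      (freeEnergy n b (rot n θ' w) - meanF n b) =
      freeEnergy n b (rot n θ w) * freeEnergy n b (rot n θ' w) -
        meanF n b * freeEnergy n b (rot n θ w) - meanF n b * freeEnergy n b (rot n θ' w) +
        meanF n b ^ 2 := fun w => by ring
  simp only [e]
  have j1 : Integrable (fun w => freeEnergy n b (rot n θ w) * freeEnergy n b (rot n θ' w) -
      meanF n b * freeEnergy n b (rot n θ w)) (PP n) := i3.sub (i1.const_mul _)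
  have j2 : Integrable (fun w => freeEnergy n b (rot n θ w) * freeEnergy n b (rot n θ' w) -
      meanF n b * freeEnergy n b (rot n θ w) - meanF n b * freeEnergy n b (rot n θ' w)) (PP n) :=
    j1.sub (i2.const_mul _)
  rw [integral_add j2 (integrable_const _),
    integral_sub j1 (i2.const_mul _), integral_sub i3 (i1.const_mul _),
    integral_const_mul, integral_const_mul, mean_rot, mean_rot, cov_rot h0]
  simp only [integral_const, probReal_univ, smul_eq_mul, one_mul]
  ring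

/-- the second moment of the increment -/
lemma inc_sq {θ θ' : ℝ} (h0 : 0 ≤ Real.cos (θ' - θ)) :
    ∫ w, (freeEnergy n b (rot n θ' w) - freeEnergy n b (rot n θ w)) ^ 2 ∂(PP n) =
      2 * (Var[freeEnergy n b; disorder n] - crossCov n b (Real.cos (θ' - θ))) := by
  have i1 : Integrable (fun w => freeEnergy n b (rot n θ w) ^ 2) (PP n) :=
    (memLp_rot θ).integrable_sq
  have i2 : Integrable (fun w => freeEnergy n b (rot n θ' w) ^ 2) (PP n) :=
    (memLp_rot θ').integrable_sq
  have i3 : Integrable (fun w => freeEnergy n b (rot n θ w) * freeEnergy n b (rot n θ' w))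
      (PP n) := (memLp_rot θ).integrable_mul (memLp_rot θ')
  have e : ∀ w, (freeEnergy n b (rot n θ' w) - freeEnergy n b (rot n θ w)) ^ 2 =
      freeEnergy n b (rot n θ' w) ^ 2 + freeEnergy n b (rot n θ w) ^ 2 -
        2 * (freeEnergy n b (rot n θ w) * freeEnergy n b (rot n θ' w)) := fun w => by ring
  simp only [e]
  have j1 : Integrable (fun w => freeEnergy n b (rot n θ' w) ^ 2 +
      freeEnergy n b (rot n θ w) ^ 2) (PP n) := i2.add i1
  rw [integral_sub j1 (i3.const_mul _), integral_add i2 i1, integral_const_mul,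
    sq_rot, sq_rot, cov_rot h0]
  ring

lemma abs_le_of_sq {Ω : Type*} [MeasurableSpace Ω] {P : Measure Ω} [IsProbabilityMeasure P]
    {D : Ω → ℝ} (hD : MemLp D 2 P) {s : ℝ} (hs : 0 < s) (h : ∫ w, D w ^ 2 ∂P ≤ s ^ 2) :
    ∫ w, |D w| ∂P ≤ s := by
  have h1 : ∫ w, |D w| ∂P ≤ ∫ w, (D w ^ 2 / (2 * s) + s / 2) ∂P := by
    refine integral_mono (hD.integrable one_le_two).abs
      ((hD.integrable_sq.div_const _).add (integrable_const _)) fun w => ?_
    simp only
    have e : D w ^ 2 / (2 * s) + s / 2 - |D w| = (|D w| - s) ^ 2 / (2 * s) := by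
      rw [← sq_abs (D w)]
      field_simp
      ring
    have : 0 ≤ (|D w| - s) ^ 2 / (2 * s) := by positivity
    linarith
  rw [integral_add (hD.integrable_sq.div_const _) (integrable_const _),
    integral_div (2 * s)] at h1
  simp only [integral_const, probReal_univ, smul_eq_mul, one_mul] at h1
  have h2 : (∫ w, D w ^ 2 ∂P) / (2 * s) ≤ s / 2 := by
    rw [div_le_iff₀ (by positivity)]
    nlinarith
  linarith

/-- log-concavity for two angles -/
lemma lc_rot (θ θ' : ℝ) : ConcaveOn ℝ univ (fun a => Real.log (∫ w, min 1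
    (Real.exp (freeEnergy n b (rot n θ' w) - freeEnergy n b (rot n θ w) - a)) ∂(PP n))) := by
  have hcv : ∀ α, ConvexOn ℝ univ (fun w => freeEnergy n b (rot n α w)) := by
    intro α
    refine ⟨convex_univ, fun p _ q _ a c ha hc hac => ?_⟩
    simp only
    rw [rot_lin]
    exact (H863.convex_freeEnergy n b).2 (mem_univ _) (mem_univ _) ha hc hac
  have hfl : ∀ (α : ℝ) (s : Fin n → ℤˣ) (w : (Pair n → ℝ) × (Pair n → ℝ)),
      rot n α (Gauge.flip s w.1, Gauge.flip s w.2) = Gauge.flip s (rot n α w) := by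
    intro α s w
    funext p
    simp only [rot, Gauge.flip]
    ring
  have hF : ∀ (s : Fin n → ℤˣ) (g : Pair n → ℝ),
      freeEnergy n b (Gauge.flip s g) = freeEnergy n b g := by
    intro s g
    unfold freeEnergy
    rw [Gauge.partitionFn_flip]
  refine pair_lc (κ := Pair n) (κ' := Pair n)
    (fun (s : Fin n → ℤˣ) w => b * hamiltonian n (rot n θ' w) s) 1
    (F := fun w => freeEnergy n b (rot n θ w)) (F' := fun w => freeEnergy n b (rot n θ' w))
    (fun w => H863.exp_freeEnergy n b _) ?_ (hcv θ) (hcv θ')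
    (fun s => (((Gauge.continuous_hamiltonian s).comp (cont_rot' θ')).const_mul b).measurable)
    ((cont_free n b).comp (cont_rot' θ)).measurable
    ((cont_free n b).comp (cont_rot' θ')).measurable
    (fun s w => (Gauge.flip s w.1, Gauge.flip s w.2))
    (fun s => (Gauge.measurePreserving_flip s).prod (Gauge.measurePreserving_flip s))
    (fun s w => by rw [hfl, hF]) (fun s w => by rw [hfl, hF])
    (fun s w => by rw [hfl, Gauge.hamiltonian_flip, mul_one])
  refine ⟨convex_univ, fun p _ q _ a c _ _ _ => le_of_eq ?_⟩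
  simp only [smul_eq_mul]
  rw [rot_lin, H863.ham_lin]
  ring

/-- **Exponential tails of the difference at the scale of its second moment.** -/
theorem pair_tail (θ θ' : ℝ) {s : ℝ} (hs : 0 < s)
    (h : ∫ w, (freeEnergy n b (rot n θ' w) - freeEnergy n b (rot n θ w)) ^ 2 ∂(PP n) ≤ s ^ 2)
    (a : ℝ) :
    (PP n).real {w | a ≤ |freeEnergy n b (rot n θ' w) - freeEnergy n b (rot n θ w)|} ≤
      2 * Real.exp 1 * Real.exp (-(a / (4 + 12 * s))) := by
  have one : ∀ α α' : ℝ,
      ∫ w, (freeEnergy n b (rot n α' w) - freeEnergy n b (rot n α w)) ^ 2 ∂(PP n) ≤ s ^ 2 →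
      (PP n).real {w | a ≤ freeEnergy n b (rot n α' w) - freeEnergy n b (rot n α w)} ≤
        Real.exp 1 * Real.exp (-(a / (4 + 12 * s))) := by
    intro α α' hh
    have hL : MemLp (fun w => freeEnergy n b (rot n α' w) - freeEnergy n b (rot n α w)) 2
      (PP n) := (memLp_rot α').sub (memLp_rot α)
    exact tail_of_lc (((cont_free n b).comp (cont_rot' α')).sub
      ((cont_free n b).comp (cont_rot' α))).measurable (hL.integrable one_le_two)
      (abs_le_of_sq hL hs hh) (lc_rot α α') a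
  have h1 := one θ θ' h
  have h2 := one θ' θ (by
    refine le_trans (le_of_eq ?_) h
    refine integral_congr_ae (Filter.Eventually.of_forall fun w => ?_)
    simp only
    ring)
  have hsub : {w | a ≤ |freeEnergy n b (rot n θ' w) - freeEnergy n b (rot n θ w)|} ⊆
      {w | a ≤ freeEnergy n b (rot n θ' w) - freeEnergy n b (rot n θ w)} ∪
        {w | a ≤ freeEnergy n b (rot n θ w) - freeEnergy n b (rot n θ' w)} := by
    intro w hw
    rcases le_abs.1 (show a ≤ |freeEnergy n b (rot n θ' w) - freeEnergy n b (rot n θ w)| from hw)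
      with hh | hh
    · exact Or.inl hh
    · refine Or.inr ?_
      rw [neg_sub] at hh
      exact hh
  refine (measureReal_mono hsub).trans ((measureReal_union_le _ _).trans ?_)
  linarith

/-! ### very small angles -/

lemma free_lip (x y : Pair n → ℝ) :
    freeEnergy n b x - freeEnergy n b y ≤ |b| * (1 / Real.sqrt n) * ∑ p, |x p - y p| := by
  rw [sub_le_iff_le_add, ← Real.exp_le_exp, Real.exp_add, H863.exp_freeEnergy,
    H863.exp_freeEnergy]
  unfold partitionFn
  rw [Finset.mul_sum]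
  refine Finset.sum_le_sum fun σ _ => ?_
  rw [← Real.exp_add, Real.exp_le_exp]
  have h1 := H863.ham_lin n 1 (-1) x y σ
  have h2 := H863.ham_abs n ((1 : ℝ) • x + (-1 : ℝ) • y) σ
  have e : ∀ p, ((1 : ℝ) • x + (-1 : ℝ) • y) p = x p - y p := fun p => by
    simp [sub_eq_add_neg]
  simp only [e] at h2
  rw [h1] at h2
  have h3 : b * (1 * hamiltonian n x σ + -1 * hamiltonian n y σ) ≤
      |b| * ((1 / Real.sqrt n) * ∑ p, |x p - y p|) := by
    refine (le_abs_self _).trans ?_
    rw [abs_mul]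
    exact mul_le_mul_of_nonneg_left h2 (abs_nonneg b)
  linarith

lemma rot_lip (hn : 1 ≤ n) (θ θ' : ℝ) (w : (Pair n → ℝ) × (Pair n → ℝ)) :
    |freeEnergy n b (rot n θ' w) - freeEnergy n b (rot n θ w)| ≤
      |b| * |θ' - θ| * (∑ p, |w.1 p| + ∑ p, |w.2 p|) := by
  have h1 : ∑ p, |rot n θ' w p - rot n θ w p| ≤ |θ' - θ| * (∑ p, |w.1 p| + ∑ p, |w.2 p|) := by
    rw [← Finset.sum_add_distrib, Finset.mul_sum]
    refine Finset.sum_le_sum fun p _ => ?_
    have e : rot n θ' w p - rot n θ w p = (Real.cos θ' - Real.cos θ) * w.1 p +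
        (Real.sin θ' - Real.sin θ) * w.2 p := by simp only [rot]; ring
    rw [e]
    refine (abs_add_le _ _).trans ?_
    rw [abs_mul, abs_mul, mul_add]
    exact add_le_add (mul_le_mul_of_nonneg_right (Real.abs_cos_sub_cos_le _ _) (abs_nonneg _))
      (mul_le_mul_of_nonneg_right (Real.abs_sin_sub_sin_le _ _) (abs_nonneg _))
  have h2 : 1 / Real.sqrt n ≤ 1 := by
    rw [div_le_one (Real.sqrt_pos.2 (by exact_mod_cast hn))]
    exact Real.one_le_sqrt.2 (by exact_mod_cast hn)
  have h3 : ∀ x y : Pair n → ℝ, freeEnergy n b x - freeEnergy n b y ≤ |b| * ∑ p, |x p - y p| := by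
    intro x y
    refine (free_lip x y).trans ?_
    refine mul_le_mul_of_nonneg_right (mul_le_of_le_one_right (abs_nonneg b) h2) ?_
    exact Finset.sum_nonneg fun _ _ => abs_nonneg _
  have h4 := mul_le_mul_of_nonneg_left h1 (abs_nonneg b)
  rw [abs_le]
  constructor
  · have := h3 (rot n θ w) (rot n θ' w)
    simp only [abs_sub_comm (rot n θ w _)] at this
    linarith
  · have := h3 (rot n θ' w) (rot n θ w)
    linarith

/-- the constant `E exp |g|` -/
noncomputable def A0 : ℝ := ∫ x, Real.exp (1 * |x|) ∂(gaussianReal 0 1)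

lemma A0_nonneg : 0 ≤ A0 := integral_nonneg fun _ => (Real.exp_pos _).le

lemma exp_sum_int {l : ℝ} : Integrable (fun g : Pair n → ℝ => Real.exp (l * ∑ p, |g p|))
    (disorder n) :=
  H863.PL.integrable_of_gr (by fun_prop) ⟨0, l, fun g => by simp⟩

lemma exp_sum_le {l : ℝ} (h0 : 0 ≤ l) (h1 : l ≤ 1) (h2 : l * Fintype.card (Pair n) ≤ 1) :
    ∫ g, Real.exp (l * ∑ p, |g p|) ∂(disorder n) ≤ Real.exp A0 := by
  have e : ∀ g : Pair n → ℝ, Real.exp (l * ∑ p, |g p|) = ∏ p, Real.exp (l * |g p|) := by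
    intro g
    rw [Finset.mul_sum, Real.exp_sum]
  simp only [e]
  unfold disorder
  rw [integral_fintype_prod_eq_pow (fun x : ℝ => Real.exp (l * |x|))]
  have h3 : ∫ x, Real.exp (l * |x|) ∂(gaussianReal 0 1) ≤ Real.exp (l * A0) := by
    have h4 : ∫ x, Real.exp (l * |x|) ∂(gaussianReal 0 1) ≤
        ∫ x, (1 + l * Real.exp (1 * |x|)) ∂(gaussianReal 0 1) := by
      refine integral_mono (H863.PL.integrable_exp_abs l) ((integrable_const _).add
        ((H863.PL.integrable_exp_abs 1).const_mul l)) fun x => ?_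
      have := convexOn_exp.2 (mem_univ 0) (mem_univ |x|) (show 0 ≤ 1 - l by linarith) h0
        (by ring)
      simp only [smul_eq_mul, mul_zero, zero_add, Real.exp_zero, mul_one, one_mul] at this ⊢
      linarith
    rw [integral_add (integrable_const _) ((H863.PL.integrable_exp_abs 1).const_mul l),
      integral_const_mul] at h4
    simp only [integral_const, probReal_univ, smul_eq_mul, one_mul] at h4
    have := Real.add_one_le_exp (l * A0)
    unfold A0 at this ⊢
    simp only [one_mul] at this ⊢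
    linarith
  refine (pow_le_pow_left₀ (integral_nonneg fun _ => (Real.exp_pos _).le) h3 _).trans ?_
  rw [← Real.exp_nat_mul, Real.exp_le_exp]
  have := mul_le_mul_of_nonneg_right h2 A0_nonneg
  linarith

lemma sum_tail (hn : 1 ≤ n) (t : ℝ) :
    (PP n).real {w | t ≤ (∑ p, |w.1 p| + ∑ p, |w.2 p|) / (n : ℝ) ^ 2} ≤
      Real.exp A0 ^ 2 * Real.exp (-t) := by
  have hn1 : (1 : ℝ) ≤ n := by exact_mod_cast hn
  have hn2 : (1 : ℝ) ≤ (n : ℝ) ^ 2 := one_le_pow₀ hn1
  have hcard : (Fintype.card (Pair n) : ℝ) ≤ (n : ℝ) ^ 2 := by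
    have := Fintype.card_subtype_le (fun p : Fin n × Fin n => p.1 < p.2)
    rw [Fintype.card_prod, Fintype.card_fin] at this
    rw [sq]
    exact_mod_cast this
  have hl := exp_sum_le (n := n) (l := 1 / (n : ℝ) ^ 2) (by positivity)
    (by rw [div_le_one (by positivity)]; exact hn2)
    (by rw [one_div, inv_mul_le_iff₀ (by positivity), mul_one]; exact hcard)
  have hi : Integrable (fun w : (Pair n → ℝ) × (Pair n → ℝ) =>
      Real.exp (1 / (n : ℝ) ^ 2 * ∑ p, |w.1 p|) * Real.exp (1 / (n : ℝ) ^ 2 * ∑ p, |w.2 p|))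
      (PP n) := exp_sum_int.mul_prod exp_sum_int
  have hM := mul_meas_ge_le_integral_of_nonneg
    (Filter.Eventually.of_forall fun w => by positivity) hi (Real.exp t)
  rw [integral_prod_mul (fun g : Pair n → ℝ => Real.exp (1 / (n : ℝ) ^ 2 * ∑ p, |g p|))
    (fun g : Pair n → ℝ => Real.exp (1 / (n : ℝ) ^ 2 * ∑ p, |g p|))] at hM
  have e : {w : (Pair n → ℝ) × (Pair n → ℝ) | t ≤ (∑ p, |w.1 p| + ∑ p, |w.2 p|) / (n : ℝ) ^ 2} =
      {w | Real.exp t ≤ Real.exp (1 / (n : ℝ) ^ 2 * ∑ p, |w.1 p|) *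
        Real.exp (1 / (n : ℝ) ^ 2 * ∑ p, |w.2 p|)} := by
    ext w
    simp only [mem_ofPred_eq]
    rw [← Real.exp_add, Real.exp_le_exp, ← mul_add, one_div, inv_mul_eq_div]
  rw [e, Real.exp_neg, ← div_eq_mul_inv, le_div_iff₀ (Real.exp_pos t), mul_comm]
  refine hM.trans ?_
  rw [sq (Real.exp A0)]
  exact mul_le_mul hl hl (integral_nonneg fun _ => (Real.exp_pos _).le) (Real.exp_pos _).le

/-! ### the input -/

/-- The input: the order of the variance and the two covariance bounds in the window. -/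
def CW (b : ℝ) : Prop := ∃ C : ℝ, 1 ≤ C ∧ ∀ n : ℕ, 2 ≤ n →
  Var[freeEnergy n b; disorder n] ≤ C * (n : ℝ) ^ (1 / 3 : ℝ) ∧
  ∀ T : ℝ, 0 < T → T ≤ 1 → 0 ≤ crossCov n b (1 - T) ∧
    crossCov n b (1 - T) ≤ Var[freeEnergy n b; disorder n] ∧
    Var[freeEnergy n b; disorder n] - crossCov n b (1 - T) ≤
      C * (n : ℝ) ^ (1 / 3 : ℝ) * (T * (n : ℝ) ^ (1 / 3 : ℝ)) ^ (1 / 1000 : ℝ) ∧
    crossCov n b (1 - T) ≤
      C * (n : ℝ) ^ (1 / 3 : ℝ) * (T * (n : ℝ) ^ (1 / 3 : ℝ)) ^ (-(1 / 1000) : ℝ)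

lemma N_sq (n : ℕ) : ((n : ℝ) ^ (1 / 6 : ℝ)) ^ 2 = (n : ℝ) ^ (1 / 3 : ℝ) := by
  have hn0 : (0 : ℝ) ≤ n := Nat.cast_nonneg n
  rw [← Real.rpow_natCast, ← Real.rpow_mul hn0]
  norm_num

lemma N_ge (hn : 1 ≤ n) : 1 ≤ (n : ℝ) ^ (1 / 6 : ℝ) :=
  Real.one_le_rpow (by exact_mod_cast hn) (by norm_num)

/-- the share of the renewed disorder at a small angle -/
lemma share {δ N : ℝ} (hN : 1 ≤ N) (hδ : δ ≠ 0) (h1 : |δ| ≤ N) :
    0 < 1 - Real.cos (δ / N) ∧ 1 - Real.cos (δ / N) ≤ 1 ∧
      (1 - Real.cos (δ / N)) * N ^ 2 ≤ δ ^ 2 ∧ δ ^ 2 / 8 ≤ (1 - Real.cos (δ / N)) * N ^ 2 := by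
  have hN0 : 0 < N := by linarith
  have h2 : |δ / N| ≤ 1 := by rw [abs_div, abs_of_pos hN0, div_le_one hN0]; exact h1
  have h3 := Real.cos_pos_of_le_one h2
  have h4 := Real.one_sub_sq_div_two_le_cos (x := δ / N)
  have h5 := Real.cos_le_one_sub_mul_cos_sq (x := δ / N) (h2.trans (by linarith [Real.pi_gt_three]))
  have e : (δ / N) ^ 2 * N ^ 2 = δ ^ 2 := by field_simp
  have h6 : 1 / 8 ≤ 2 / Real.pi ^ 2 := by
    rw [div_le_div_iff₀ (by norm_num) (by positivity)]
    nlinarith [Real.pi_lt_four, Real.pi_pos]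
  have h7 : 1 / 8 * (δ / N) ^ 2 ≤ 2 / Real.pi ^ 2 * (δ / N) ^ 2 :=
    mul_le_mul_of_nonneg_right h6 (sq_nonneg _)
  have h8 : 0 < (δ / N) ^ 2 := by positivity
  have hN2 : 0 < N ^ 2 := by positivity
  refine ⟨by linarith, by linarith, ?_, ?_⟩
  · rw [← e]
    refine mul_le_mul_of_nonneg_right (by linarith) hN2.le
  · rw [← e]
    have : 1 / 8 * (δ / N) ^ 2 * N ^ 2 ≤ (1 - Real.cos (δ / N)) * N ^ 2 :=
      mul_le_mul_of_nonneg_right (by linarith) hN2.le
    linarith

lemma sq_rpow {δ : ℝ} (r : ℝ) : (δ ^ 2) ^ r = |δ| ^ (2 * r) := by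
  rw [← sq_abs, ← Real.rpow_natCast, ← Real.rpow_mul (abs_nonneg δ)]
  norm_num

/-- **The tails of the increments.** -/
theorem inc_tail (hb : 1 < b) (h : CW b) : ∃ c C : ℝ, 0 < c ∧ 1 ≤ C ∧ ∀ n : ℕ, 2 ≤ n →
    ∀ σ τ : ℝ, |τ - σ| ≤ 1 → σ ≠ τ → ∀ u : ℝ, 0 ≤ u →
      (PP n).real {w | u * |τ - σ| ^ (1 / 1000 : ℝ) ≤ |path n b w τ - path n b w σ|} ≤
        C * Real.exp (-(c * u)) := by
  obtain ⟨C, hC, h⟩ := h
  obtain ⟨K, hK⟩ : ∃ K, K = Real.sqrt (2 * C) := ⟨_, rfl⟩
  have hK0 : 0 < K := by rw [hK]; exact Real.sqrt_pos.2 (by linarith)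
  have hK2 : K ^ 2 = 2 * C := by rw [hK]; exact Real.sq_sqrt (by linarith)
  have hb0 : 0 < b := by linarith
  have hE : 1 ≤ Real.exp 1 := Real.one_le_exp zero_le_one
  have hA : 0 ≤ Real.exp A0 ^ 2 := by positivity
  refine ⟨min (1 / (4 + 12 * K)) (1 / b), 2 * Real.exp 1 + Real.exp A0 ^ 2, by positivity,
    by linarith, fun n hn σ τ hd hne u hu => ?_⟩
  have hn1 : 1 ≤ n := by omega
  obtain ⟨N, hN⟩ : ∃ N, N = (n : ℝ) ^ (1 / 6 : ℝ) := ⟨_, rfl⟩
  have hN1 : 1 ≤ N := by rw [hN]; exact N_ge hn1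
  have hN0 : 0 < N := by linarith
  have hN2 : N ^ 2 = (n : ℝ) ^ (1 / 3 : ℝ) := by rw [hN]; exact N_sq n
  have hδ : τ - σ ≠ 0 := sub_ne_zero.2 hne.symm
  have hδ0 : 0 < |τ - σ| := abs_pos.2 hδ
  obtain ⟨r, hr⟩ : ∃ r, r = |τ - σ| ^ (1 / 1000 : ℝ) := ⟨_, rfl⟩
  have hr0 : 0 < r := by rw [hr]; positivity
  have hset : {w | u * |τ - σ| ^ (1 / 1000 : ℝ) ≤ |path n b w τ - path n b w σ|} =
      {w | u * (N * r) ≤ |freeEnergy n b (rot n (τ / N) w) - freeEnergy n b (rot n (σ / N) w)|} := by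
    ext w
    simp only [mem_ofPred_eq, path, ContinuousMap.coe_mk, ← hN, ← hr]
    rw [← sub_div, sub_sub_sub_cancel_right, abs_div, abs_of_pos hN0, le_div_iff₀ hN0]
    constructor <;> intro hh <;> linarith
  rw [hset]
  have hang : τ / N - σ / N = (τ - σ) / N := by ring
  rcases le_or_gt 1 (N * r) with hc | hc
  · obtain ⟨s1, s2, s3, -⟩ := share hN1 hδ (hd.trans hN1)
    obtain ⟨-, -, k, -⟩ := (h n hn).2 _ s1 s2
    rw [sub_sub_cancel, ← hN2] at k
    have h1 : ∫ w, (freeEnergy n b (rot n (τ / N) w) - freeEnergy n b (rot n (σ / N) w)) ^ 2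
        ∂(PP n) ≤ (K * (N * r)) ^ 2 := by
      rw [inc_sq (by rw [hang]; linarith), hang]
      have h2 : ((1 - Real.cos ((τ - σ) / N)) * N ^ 2) ^ (1 / 1000 : ℝ) ≤ r ^ 2 := by
        refine (Real.rpow_le_rpow (by positivity) s3 (by norm_num)).trans (le_of_eq ?_)
        rw [sq_rpow, hr, ← Real.rpow_natCast, ← Real.rpow_mul hδ0.le]
        norm_num
      have h3 : C * N ^ 2 * ((1 - Real.cos ((τ - σ) / N)) * N ^ 2) ^ (1 / 1000 : ℝ) ≤
          C * N ^ 2 * r ^ 2 := mul_le_mul_of_nonneg_left h2 (by positivity)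
      have e : (K * (N * r)) ^ 2 = 2 * (C * N ^ 2 * r ^ 2) := by rw [mul_pow, hK2]; ring
      rw [e]
      linarith
    refine (pair_tail _ _ (by positivity) h1 _).trans ?_
    refine mul_le_mul (by linarith) (Real.exp_le_exp.2 (neg_le_neg ?_)) (Real.exp_pos _).le
      (by positivity)
    refine (mul_le_mul_of_nonneg_right (min_le_left _ _) hu).trans ?_
    rw [one_div, inv_mul_eq_div, div_le_div_iff₀ (by positivity) (by positivity)]
    have : 0 ≤ u * (N * r - 1) := mul_nonneg hu (by linarith)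
    nlinarith
  · have hsub : {w | u * (N * r) ≤
        |freeEnergy n b (rot n (τ / N) w) - freeEnergy n b (rot n (σ / N) w)|} ⊆
        {w | u / b ≤ (∑ p, |w.1 p| + ∑ p, |w.2 p|) / (n : ℝ) ^ 2} := by
      intro w hw
      have h1 := le_trans (show u * (N * r) ≤ _ from hw) (rot_lip (b := b) hn1 (σ / N) (τ / N) w)
      obtain ⟨S, hS⟩ : ∃ S, S = ∑ p, |w.1 p| + ∑ p, |w.2 p| := ⟨_, rfl⟩
      have hS0 : 0 ≤ S := by rw [hS]; positivity
      simp only [mem_ofPred_eq]
      rw [← hS] at h1 ⊢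
      rw [hang, abs_div, abs_of_pos hN0, abs_of_pos hb0] at h1
      have e1 : |τ - σ| = r ^ 1000 := by
        rw [hr, ← Real.rpow_natCast, ← Real.rpow_mul hδ0.le]
        norm_num
      have e2 : (n : ℝ) ^ 2 = N ^ 12 := by
        rw [hN, ← Real.rpow_natCast, ← Real.rpow_natCast, ← Real.rpow_mul (Nat.cast_nonneg n)]
        norm_num
      have hr1 : r ≤ 1 := by nlinarith
      have h2 : r ^ 999 * N ^ 12 ≤ 1 := by
        have q1 : r ^ 999 ≤ r ^ 12 := pow_le_pow_of_le_one hr0.le hr1 (by norm_num)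
        have q2 : (N * r) ^ 12 ≤ 1 := pow_le_one₀ (by positivity) hc.le
        rw [mul_pow] at q2
        have q3 : r ^ 999 * N ^ 12 ≤ r ^ 12 * N ^ 12 :=
          mul_le_mul_of_nonneg_right q1 (by positivity)
        linarith
      rw [e2, div_le_div_iff₀ hb0 (by positivity)]
      rw [e1] at h1
      have h3 : u * r ≤ b * r ^ 1000 * S := by
        have q1 : u * r ≤ u * (N * r) :=
          mul_le_mul_of_nonneg_left (le_mul_of_one_le_left hr0.le hN1) hu
        have q2 : r ^ 1000 / N ≤ r ^ 1000 := div_le_self (by positivity) hN1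
        have q3 : b * (r ^ 1000 / N) * S ≤ b * r ^ 1000 * S := by gcongr
        linarith
      have h4 : u ≤ b * r ^ 999 * S := by
        refine le_of_mul_le_mul_right ?_ hr0
        refine h3.trans (le_of_eq ?_)
        ring
      calc u * N ^ 12 ≤ b * r ^ 999 * S * N ^ 12 := mul_le_mul_of_nonneg_right h4 (by positivity)
        _ = S * b * (r ^ 999 * N ^ 12) := by ring
        _ ≤ S * b := mul_le_of_le_one_right (by positivity) h2
    refine (measureReal_mono hsub).trans ((sum_tail hn1 _).trans ?_)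
    refine mul_le_mul (by linarith) (Real.exp_le_exp.2 (neg_le_neg ?_)) (Real.exp_pos _).le
      (by positivity)
    refine (mul_le_mul_of_nonneg_right (min_le_right _ _) hu).trans (le_of_eq ?_)
    ring

end Vale.Agent.N146.Proc
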