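import Vale.Agent.N146.Proc.Defs

/-!
# P146, process limit: general facts on weak limits and on mixing (helper75)

`tendsto_int`: convergence of integrals under a uniform second moment.
`mixing_of`: mixing of a stationary law on paths from trigonometric functions.
`mixing_sets`, `ergodic_of`: mixing for measurable sets and ergodicity of every shift.
-/

open MeasureTheory ProbabilityTheory Set Filter Topology BoundedContinuousFunction

namespace Vale.Agent.N146.Proc

section weak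

variable {X : Type*} [MeasurableSpace X] [TopologicalSpace X] [OpensMeasurableSpace X]
  [HasOuterApproxClosed X] {P : ℕ → ProbabilityMeasure X} {Q : ProbabilityMeasure X}

lemma int_le_lim (hl : Tendsto P atTop (𝓝 Q)) {f : X → ℝ} (hf : Continuous f) (h0 : ∀ x, 0 ≤ f x)
    {A : ℝ} (hA : ∀ᶠ k in atTop, Integrable f (P k : Measure X) ∧ ∫ x, f x ∂(P k : Measure X) ≤ A) :
    Integrable f (Q : Measure X) ∧ ∫ x, f x ∂(Q : Measure X) ≤ A := by
  have hA0 : 0 ≤ A := by
    obtain ⟨k, hk⟩ := hA.exists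
    exact (integral_nonneg h0).trans hk.2
  have h1 := lintegral_le_liminf_lintegral_of_forall_isOpen_measure_le_liminf_measure
    (μ := (Q : Measure X)) (μs := fun k => (P k : Measure X)) hf h0
    fun G hG => ProbabilityMeasure.le_liminf_measure_open_of_tendsto hl hG
  have h2 : liminf (fun k => ∫⁻ x, ENNReal.ofReal (f x) ∂(P k : Measure X)) atTop ≤
      ENNReal.ofReal A := by
    refine liminf_le_of_frequently_le' (Eventually.frequently ?_)
    filter_upwards [hA] with k hk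
    rw [← ofReal_integral_eq_lintegral_ofReal hk.1 (Eventually.of_forall h0)]
    exact ENNReal.ofReal_le_ofReal hk.2
  have h3 := h1.trans h2
  have hi : Integrable f (Q : Measure X) := ⟨hf.aestronglyMeasurable,
    (hasFiniteIntegral_iff_ofReal (Eventually.of_forall h0)).2 (h3.trans_lt ENNReal.ofReal_lt_top)⟩
  refine ⟨hi, ?_⟩
  rw [← ofReal_integral_eq_lintegral_ofReal hi (Eventually.of_forall h0)] at h3
  exact (ENNReal.ofReal_le_ofReal_iff hA0).1 h3

lemma trunc_le (x : ℝ) {M : ℝ} (hM : 0 < M) : |x - max (-M) (min M x)| ≤ x ^ 2 / M := by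
  rw [le_div_iff₀ hM]
  rcases le_total x M with h | h
  · rw [min_eq_right h]
    rcases le_total (-M) x with h' | h'
    · rw [max_eq_right h', sub_self, abs_zero, zero_mul]
      positivity
    · rw [max_eq_left h', abs_of_nonpos (by linarith)]
      nlinarith
  · rw [min_eq_left h, max_eq_right (by linarith), abs_of_nonneg (by linarith)]
    nlinarith

omit [HasOuterApproxClosed X] in
lemma trunc_int {μ : Measure X} [IsProbabilityMeasure μ] {f : X → ℝ} (hf : Continuous f)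
    {A M : ℝ} (hM : 0 < M) (hi : Integrable (fun x => f x ^ 2) μ) (hA : ∫ x, f x ^ 2 ∂μ ≤ A)
    (T : X →ᵇ ℝ) (hT : ∀ x, T x = max (-M) (min M (f x))) :
    |∫ x, f x ∂μ - ∫ x, T x ∂μ| ≤ A / M := by
  have h1 : Integrable f μ :=
    ((memLp_two_iff_integrable_sq hf.aestronglyMeasurable).2 hi).integrable one_le_two
  rw [← integral_sub h1 (T.integrable μ)]
  refine abs_integral_le_integral_abs.trans ((integral_mono (h1.sub (T.integrable μ)).abs
    (hi.div_const M) fun x => ?_).trans ?_)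
  · simp only [Pi.sub_apply, hT]
    exact trunc_le _ hM
  · rw [integral_div]
    exact div_le_div_of_nonneg_right hA hM.le

/-- convergence of integrals under a uniform bound of the second moments -/
theorem tendsto_int (hl : Tendsto P atTop (𝓝 Q)) {f : X → ℝ} (hf : Continuous f) {A : ℝ}
    (hA : ∀ᶠ k in atTop, Integrable (fun x => f x ^ 2) (P k : Measure X) ∧
      ∫ x, f x ^ 2 ∂(P k : Measure X) ≤ A) :
    Tendsto (fun k => ∫ x, f x ∂(P k : Measure X)) atTop (𝓝 (∫ x, f x ∂(Q : Measure X))) := by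
  obtain ⟨hi, hQ⟩ := int_le_lim hl (hf.pow 2) (fun x => sq_nonneg _) hA
  have hA0 : 0 ≤ A := (integral_nonneg fun x => sq_nonneg _).trans hQ
  rw [Metric.tendsto_nhds]
  intro ε hε
  obtain ⟨M, hM⟩ : ∃ M, M = 4 * A / ε + 1 := ⟨_, rfl⟩
  have hM0 : 0 < M := by rw [hM]; positivity
  have hAM : A / M ≤ ε / 4 := by
    rw [div_le_iff₀ hM0, hM]
    have : ε / 4 * (4 * A / ε + 1) = A + ε / 4 := by field_simp
    linarith
  obtain ⟨T, hT⟩ : ∃ T : X →ᵇ ℝ, ∀ x, T x = max (-M) (min M (f x)) := by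
    refine ⟨BoundedContinuousFunction.ofNormedAddCommGroup (fun x => max (-M) (min M (f x)))
      (by fun_prop) M fun x => ?_, fun _ => rfl⟩
    rw [Real.norm_eq_abs, abs_le]
    exact ⟨le_max_left _ _, max_le (by linarith) (min_le_left _ _)⟩
  have h1 := (ProbabilityMeasure.tendsto_iff_forall_integral_tendsto.1 hl) T
  rw [Metric.tendsto_nhds] at h1
  filter_upwards [hA, h1 (ε / 4) (by positivity)] with k hk hk1
  have q1 := abs_le.1 (trunc_int hf hM0 hk.1 hk.2 T hT)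
  have q2 := abs_le.1 (trunc_int hf hM0 hi hQ T hT)
  rw [Real.dist_eq, abs_lt] at hk1 ⊢
  constructor <;> linarith [q1.1, q1.2, q2.1, q2.2, hk1.1, hk1.2]

end weak

lemma cont_shift (s : ℝ) : Continuous (shift s) := ContinuousMap.continuous_precomp _

lemma cont_rev : Continuous rev := ContinuousMap.continuous_precomp _

lemma shift_shift (s t : ℝ) (y : C(ℝ, ℝ)) : shift s (shift t y) = shift (s + t) y := by
  ext τ
  simp [shift, add_assoc]

lemma shift_zero (y : C(ℝ, ℝ)) : shift 0 y = y := by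
  ext τ
  simp [shift]

/-- the pairing of a pair of paths with a pair of finite families of coefficients -/
noncomputable def pairing : C(ℝ, ℝ) × C(ℝ, ℝ) →ₗ[ℝ] (ℝ →₀ ℝ) × (ℝ →₀ ℝ) →ₗ[ℝ] ℝ :=
  LinearMap.mk₂ ℝ (fun p a => Finsupp.linearCombination ℝ p.1 a.1 +
      Finsupp.linearCombination ℝ p.2 a.2)
    (fun p p' a => by
      simp only [Finsupp.linearCombination_apply, Finsupp.sum, Prod.fst_add, Prod.snd_add,
        ContinuousMap.add_apply, smul_add, Finset.sum_add_distrib]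
      ring)
    (fun c p a => by
      simp only [Finsupp.linearCombination_apply, Finsupp.sum, Prod.smul_fst, Prod.smul_snd,
        ContinuousMap.smul_apply, smul_eq_mul, mul_add, Finset.mul_sum, mul_left_comm])
    (fun p a a' => by
      simp only [Prod.fst_add, Prod.snd_add, map_add]
      ring)
    (fun c p a => by simp only [Prod.smul_fst, Prod.smul_snd, map_smul, smul_add])

lemma pairing_apply (p : C(ℝ, ℝ) × C(ℝ, ℝ)) (a : (ℝ →₀ ℝ) × (ℝ →₀ ℝ)) :
    pairing p a = ∑ k ∈ a.1.support, a.1 k * p.1 k + ∑ l ∈ a.2.support, a.2 l * p.2 l := rfl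

lemma pairing_ne (p : C(ℝ, ℝ) × C(ℝ, ℝ)) (hp : p ≠ 0) : pairing p ≠ 0 := by
  intro h
  refine hp (Prod.ext ?_ ?_)
  · ext τ
    have := DFunLike.congr_fun h (Finsupp.single τ 1, 0)
    simpa [pairing] using this
  · ext τ
    have := DFunLike.congr_fun h (0, Finsupp.single τ 1)
    simpa [pairing] using this

lemma cexp_split (A B : ℝ) : Complex.exp (((A + B : ℝ) : ℂ) * Complex.I) =
    ((Real.cos (A + 0) * Real.cos (B + 0) -
      Real.cos (A + -(Real.pi / 2)) * Real.cos (B + -(Real.pi / 2)) : ℝ) : ℂ) +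
    ((Real.cos (A + -(Real.pi / 2)) * Real.cos (B + 0) +
      Real.cos (A + 0) * Real.cos (B + -(Real.pi / 2)) : ℝ) : ℂ) * Complex.I := by
  simp only [← sub_eq_add_neg, Real.cos_sub_pi_div_two, add_zero]
  rw [← Real.cos_add, ← Real.sin_add, Complex.exp_mul_I, Complex.ofReal_cos, Complex.ofReal_sin]

variable [MeasurableSpace C(ℝ, ℝ)] [BorelSpace C(ℝ, ℝ)] {Q : ProbabilityMeasure C(ℝ, ℝ)}

/-- a trigonometric function of the path -/
noncomputable def trig (s : Finset ℝ) (u : ℝ → ℝ) (c : ℝ) : C(ℝ, ℝ) →ᵇ ℝ :=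
  BoundedContinuousFunction.ofNormedAddCommGroup (fun y => Real.cos (∑ k ∈ s, u k * y k + c))
    (by fun_prop) 1 fun _ => Real.abs_cos_le_one _

omit [MeasurableSpace C(ℝ, ℝ)] [BorelSpace C(ℝ, ℝ)] in
lemma trig_apply (s : Finset ℝ) (u : ℝ → ℝ) (c : ℝ) (y : C(ℝ, ℝ)) :
    trig s u c y = Real.cos (∑ k ∈ s, u k * y k + c) := rfl

/-- the product of two bounded continuous functions -/
noncomputable def tens (f h : C(ℝ, ℝ) →ᵇ ℝ) : C(ℝ, ℝ) × C(ℝ, ℝ) →ᵇ ℝ :=
  f.compContinuous ⟨Prod.fst, continuous_fst⟩ * h.compContinuous ⟨Prod.snd, continuous_snd⟩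

omit [MeasurableSpace C(ℝ, ℝ)] [BorelSpace C(ℝ, ℝ)] in
lemma tens_apply (f h : C(ℝ, ℝ) →ᵇ ℝ) (p : C(ℝ, ℝ) × C(ℝ, ℝ)) : tens f h p = f p.1 * h p.2 := rfl

lemma int_char (μ : Measure (C(ℝ, ℝ) × C(ℝ, ℝ))) [IsProbabilityMeasure μ]
    (a : (ℝ →₀ ℝ) × (ℝ →₀ ℝ)) :
    ∫ p, (Real.probChar (pairing p a) : ℂ) ∂μ =
      ((∫ p, tens (trig a.1.support a.1 0) (trig a.2.support a.2 0) p ∂μ -
        ∫ p, tens (trig a.1.support a.1 (-(Real.pi / 2)))
          (trig a.2.support a.2 (-(Real.pi / 2))) p ∂μ : ℝ) : ℂ) +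
      ((∫ p, tens (trig a.1.support a.1 (-(Real.pi / 2))) (trig a.2.support a.2 0) p ∂μ +
        ∫ p, tens (trig a.1.support a.1 0) (trig a.2.support a.2 (-(Real.pi / 2))) p ∂μ : ℝ) : ℂ) *
        Complex.I := by
  have hi := fun c c' => (tens (trig a.1.support a.1 c) (trig a.2.support a.2 c')).integrable μ
  rw [← integral_sub (hi _ _) (hi _ _), ← integral_add (hi _ _) (hi _ _), ← integral_complex_ofReal,
    ← integral_complex_ofReal, ← integral_mul_const,
    ← integral_add ((hi _ _).sub (hi _ _)).ofReal (((hi _ _).add (hi _ _)).ofReal.mul_const _)]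
  refine integral_congr_ae (Eventually.of_forall fun p => ?_)
  simp only
  rw [Real.probChar_apply, pairing_apply, cexp_split]
  rfl

/-- the joint law of the path and of its shift -/
noncomputable def joint (Q : ProbabilityMeasure C(ℝ, ℝ)) (τ : ℝ) :
    ProbabilityMeasure (C(ℝ, ℝ) × C(ℝ, ℝ)) :=
  Q.map (f := fun y => (y, shift τ y)) (continuous_id.prodMk (cont_shift τ)).measurable.aemeasurable

lemma int_joint (τ : ℝ) (f h : C(ℝ, ℝ) →ᵇ ℝ) :
    ∫ p, tens f h p ∂(joint Q τ : Measure (C(ℝ, ℝ) × C(ℝ, ℝ))) =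
      ∫ y, f y * h (shift τ y) ∂(Q : Measure C(ℝ, ℝ)) :=
  integral_map (continuous_id.prodMk (cont_shift τ)).measurable.aemeasurable
    (tens f h).continuous.aestronglyMeasurable

omit [BorelSpace C(ℝ, ℝ)] in
lemma int_prod (f h : C(ℝ, ℝ) →ᵇ ℝ) :
    ∫ p, tens f h p ∂(Q.prod Q : Measure (C(ℝ, ℝ) × C(ℝ, ℝ))) =
      (∫ y, f y ∂(Q : Measure C(ℝ, ℝ))) * ∫ y, h y ∂(Q : Measure C(ℝ, ℝ)) :=
  integral_prod_mul (μ := (Q : Measure C(ℝ, ℝ))) (ν := (Q : Measure C(ℝ, ℝ))) f h

/-- **Mixing from trigonometric functions.** -/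
theorem mixing_of (hs : ∀ s, MeasurePreserving (shift s) (Q : Measure C(ℝ, ℝ)) Q)
    (hc : ∀ (s s' : Finset ℝ) (u v : ℝ → ℝ) (c c' : ℝ),
      Tendsto (fun τ => ∫ y, trig s u c y * trig s' v c' (shift τ y) ∂(Q : Measure C(ℝ, ℝ))) atTop
        (𝓝 ((∫ y, trig s u c y ∂(Q : Measure C(ℝ, ℝ))) *
          ∫ y, trig s' v c' y ∂(Q : Measure C(ℝ, ℝ))))) (f h : C(ℝ, ℝ) →ᵇ ℝ) :
    Tendsto (fun τ => ∫ y, f y * h (shift τ y) ∂(Q : Measure C(ℝ, ℝ))) atTop
      (𝓝 ((∫ y, f y ∂(Q : Measure C(ℝ, ℝ))) * ∫ y, h y ∂(Q : Measure C(ℝ, ℝ)))) := by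
  let _ : TopologicalSpace ((ℝ →₀ ℝ) × (ℝ →₀ ℝ)) := ⊥
  have _ : DiscreteTopology ((ℝ →₀ ℝ) × (ℝ →₀ ℝ)) := ⟨rfl⟩
  have hL : Continuous fun p : (C(ℝ, ℝ) × C(ℝ, ℝ)) × ((ℝ →₀ ℝ) × (ℝ →₀ ℝ)) => pairing p.1 p.2 := by
    refine continuous_prod_of_discrete_right.2 fun a => ?_
    simp only [pairing_apply]
    fun_prop
  have h1 : IsTightMeasureSet {(Q : Measure C(ℝ, ℝ))} := isTightMeasureSet_singleton
  have ht : IsTightMeasureSet {(joint Q τ : Measure (C(ℝ, ℝ) × C(ℝ, ℝ))) | τ} := by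
    refine IsTightMeasureSet.prodMk (h1.subset ?_) (h1.subset ?_)
    · rintro _ ⟨_, ⟨τ, rfl⟩, rfl⟩
      exact (Measure.fst_map_prodMk (cont_shift τ).measurable).trans Measure.map_id
    · rintro _ ⟨_, ⟨τ, rfl⟩, rfl⟩
      exact (Measure.snd_map_prodMk measurable_id).trans (hs τ).map_eq
  have key : Tendsto (joint Q) atTop (𝓝 (Q.prod Q)) := by
    refine ProbabilityMeasure.tendsto_of_tight_of_separatesPoints ℂ ht
      (separatesPoints_charPoly Real.continuous_probChar Real.probChar_ne_one hL pairing_ne)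
      fun g hg => ?_
    rw [mem_charPoly] at hg
    obtain ⟨w, hw⟩ := hg
    have e : ∀ (μ : Measure (C(ℝ, ℝ) × C(ℝ, ℝ))) [IsProbabilityMeasure μ],
        ∫ x, g x ∂μ = ∑ a ∈ w.coeff.support,
          w.coeff a * ∫ x, (Real.probChar (pairing x a) : ℂ) ∂μ := by
      intro μ _
      simp_rw [hw, Finsupp.sum]
      refine (integral_finsetSum _ fun a _ =>
        ((char Real.continuous_probChar hL a).integrable μ).const_mul (w.coeff a)).trans ?_
      simp only [integral_const_mul]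
      rfl
    simp only [e, int_char, int_joint, int_prod]
    refine tendsto_finsetSum _ fun a _ => Tendsto.const_mul _ (Tendsto.add ?_
      (Tendsto.mul_const _ ?_))
    · exact (Complex.continuous_ofReal.tendsto _).comp ((hc _ _ _ _ _ _).sub (hc _ _ _ _ _ _))
    · exact (Complex.continuous_ofReal.tendsto _).comp ((hc _ _ _ _ _ _).add (hc _ _ _ _ _ _))
  have := (ProbabilityMeasure.tendsto_iff_forall_integral_tendsto.1 key) (tens f h)
  simpa only [int_joint, int_prod] using this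

omit [MeasurableSpace C(ℝ, ℝ)] [BorelSpace C(ℝ, ℝ)] in
lemma approx_prod {Ω : Type*} [MeasurableSpace Ω] {μ : Measure Ω} {a a' f f' : Ω → ℝ} {M : ℝ}
    (ha : Integrable a μ) (ha' : Integrable a' μ) (hf : Integrable f μ) (hf' : Integrable f' μ)
    (h1 : ∀ x, |a' x| ≤ 1) (hM : ∀ x, |f x| ≤ M) :
    |∫ x, a x * a' x ∂μ - ∫ x, f x * f' x ∂μ| ≤
      ∫ x, ‖a x - f x‖ ∂μ + M * ∫ x, ‖a' x - f' x‖ ∂μ := by
  have i1 : Integrable (fun x => a x * a' x) μ :=
    ha.mul_bdd ha'.aestronglyMeasurable (Eventually.of_forall h1)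
  have i2 : Integrable (fun x => f x * f' x) μ :=
    hf'.bdd_mul hf.aestronglyMeasurable (Eventually.of_forall hM)
  have i3 : Integrable (fun x => ‖a x - f x‖) μ := (ha.sub hf).norm
  have i4 : Integrable (fun x => ‖a' x - f' x‖) μ := (ha'.sub hf').norm
  rw [← integral_sub i1 i2, ← integral_const_mul, ← integral_add i3 (i4.const_mul M)]
  refine abs_integral_le_integral_abs.trans (integral_mono (i1.sub i2).abs
    (i3.add (i4.const_mul M)) fun x => ?_)
  have e : a x * a' x - f x * f' x = (a x - f x) * a' x + f x * (a' x - f' x) := by ring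
  simp only [Real.norm_eq_abs]
  rw [e]
  refine (abs_add_le _ _).trans ?_
  rw [abs_mul, abs_mul]
  exact add_le_add (mul_le_of_le_one_right (abs_nonneg _) (h1 x))
    (mul_le_mul_of_nonneg_right (hM x) (abs_nonneg _))

/-- **Mixing for measurable sets.** -/
theorem mixing_sets (hs : ∀ s, MeasurePreserving (shift s) (Q : Measure C(ℝ, ℝ)) Q)
    (hm : ∀ f h : C(ℝ, ℝ) →ᵇ ℝ,
      Tendsto (fun τ => ∫ y, f y * h (shift τ y) ∂(Q : Measure C(ℝ, ℝ))) atTop
        (𝓝 ((∫ y, f y ∂(Q : Measure C(ℝ, ℝ))) * ∫ y, h y ∂(Q : Measure C(ℝ, ℝ)))))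
    {A B : Set C(ℝ, ℝ)} (hA : MeasurableSet A) (hB : MeasurableSet B) :
    Tendsto (fun τ => (Q : Measure C(ℝ, ℝ)).real (A ∩ shift τ ⁻¹' B)) atTop
      (𝓝 ((Q : Measure C(ℝ, ℝ)).real A * (Q : Measure C(ℝ, ℝ)).real B)) := by
  have iA : Integrable (A.indicator (1 : C(ℝ, ℝ) → ℝ)) (Q : Measure C(ℝ, ℝ)) :=
    (integrable_const 1).indicator hA
  have iB : Integrable (B.indicator (1 : C(ℝ, ℝ) → ℝ)) (Q : Measure C(ℝ, ℝ)) :=
    (integrable_const 1).indicator hB
  have bB : ∀ y, |B.indicator (1 : C(ℝ, ℝ) → ℝ) y| ≤ 1 := by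
    intro y
    by_cases hy : y ∈ B <;> simp [hy]
  rw [Metric.tendsto_nhds]
  intro ε hε
  obtain ⟨f, hf, -⟩ := iA.exists_boundedContinuous_integral_sub_le (ε := ε / 5) (by positivity)
  obtain ⟨h, hh, -⟩ := iB.exists_boundedContinuous_integral_sub_le
    (ε := ε / 5 / (‖f‖ + 1)) (by positivity)
  have hM : ∀ y, |f y| ≤ ‖f‖ := fun y => f.norm_coe_le_norm y
  have h2 : ‖f‖ * ∫ y, ‖B.indicator (1 : C(ℝ, ℝ) → ℝ) y - h y‖ ∂(Q : Measure C(ℝ, ℝ)) ≤ ε / 5 := by
    refine (mul_le_mul_of_nonneg_left hh (norm_nonneg f)).trans ?_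
    rw [mul_div_assoc', div_le_iff₀ (by positivity)]
    nlinarith
  have q2 := approx_prod (μ := (Q : Measure C(ℝ, ℝ)).prod Q)
    (a := fun p => A.indicator (1 : C(ℝ, ℝ) → ℝ) p.1)
    (a' := fun p => B.indicator (1 : C(ℝ, ℝ) → ℝ) p.2) (f := fun p => f p.1) (f' := fun p => h p.2)
    (iA.comp_fst _) (iB.comp_snd _) ((f.integrable _).comp_fst _) ((h.integrable _).comp_snd _)
    (fun p => bB _) fun p => hM _
  rw [integral_prod_mul, integral_prod_mul, integral_indicator_one hA, integral_indicator_one hB,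
    integral_fun_fst (fun y => ‖A.indicator (1 : C(ℝ, ℝ) → ℝ) y - f y‖),
    integral_fun_snd (fun y => ‖B.indicator (1 : C(ℝ, ℝ) → ℝ) y - h y‖)] at q2
  simp only [probReal_univ, one_smul] at q2
  have h3 := hm f h
  rw [Metric.tendsto_nhds] at h3
  filter_upwards [h3 (ε / 5) (by positivity)] with τ hτ
  have q1 := approx_prod (a' := fun y => B.indicator (1 : C(ℝ, ℝ) → ℝ) (shift τ y))
    (f' := fun y => h (shift τ y)) iA ((hs τ).integrable_comp_of_integrable iB) (f.integrable _)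
    ((hs τ).integrable_comp_of_integrable (h.integrable _)) (fun p => bB _) hM
  have e1 : ∫ y, A.indicator (1 : C(ℝ, ℝ) → ℝ) y * B.indicator (1 : C(ℝ, ℝ) → ℝ) (shift τ y)
      ∂(Q : Measure C(ℝ, ℝ)) = (Q : Measure C(ℝ, ℝ)).real (A ∩ shift τ ⁻¹' B) := by
    rw [← integral_indicator_one (hA.inter ((hs τ).measurable hB))]
    refine integral_congr_ae (Eventually.of_forall fun y => ?_)
    by_cases h1 : y ∈ A <;> by_cases h2 : shift τ y ∈ B <;> simp [h1, h2]
  have e2 : ∫ y, ‖B.indicator (1 : C(ℝ, ℝ) → ℝ) (shift τ y) - h (shift τ y)‖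
      ∂(Q : Measure C(ℝ, ℝ)) =
      ∫ y, ‖B.indicator (1 : C(ℝ, ℝ) → ℝ) y - h y‖ ∂(Q : Measure C(ℝ, ℝ)) := by
    have k := integral_map (μ := (Q : Measure C(ℝ, ℝ))) (hs τ).measurable.aemeasurable
      (f := fun y => ‖B.indicator (1 : C(ℝ, ℝ) → ℝ) y - h y‖)
      (by rw [(hs τ).map_eq]; exact (iB.sub (h.integrable _)).norm.aestronglyMeasurable)
    rw [(hs τ).map_eq] at k
    exact k.symm
  rw [e1, e2] at q1
  rw [abs_le] at q1 q2
  rw [Real.dist_eq, abs_lt] at hτ ⊢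
  constructor <;> linarith [q1.1, q1.2, q2.1, q2.2, hτ.1, hτ.2]

omit [BorelSpace C(ℝ, ℝ)] in
/-- **Every shift is ergodic.** -/
theorem ergodic_of (hs : ∀ s, MeasurePreserving (shift s) (Q : Measure C(ℝ, ℝ)) Q)
    (hm : ∀ A B : Set C(ℝ, ℝ), MeasurableSet A → MeasurableSet B →
      Tendsto (fun τ => (Q : Measure C(ℝ, ℝ)).real (A ∩ shift τ ⁻¹' B)) atTop
        (𝓝 ((Q : Measure C(ℝ, ℝ)).real A * (Q : Measure C(ℝ, ℝ)).real B)))
    {s : ℝ} (h0 : s ≠ 0) : Ergodic (shift s) (Q : Measure C(ℝ, ℝ)) := by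
  refine ⟨hs s, ⟨fun A hA hinv => ?_⟩⟩
  have h1 : shift |s| ⁻¹' A = A := by
    rcases abs_cases s with h | h
    · rw [h.1, hinv]
    · rw [h.1]
      conv_lhs => rw [← hinv]
      ext y
      simp only [mem_preimage, shift_shift, add_neg_cancel, shift_zero]
  have h2 : ∀ k : ℕ, shift (k * |s|) ⁻¹' A = A := by
    intro k
    induction k with
    | zero => ext y; simp [shift_zero]
    | succ k ih =>
      conv_rhs => rw [← h1, ← ih]
      ext y
      simp only [mem_preimage, shift_shift, Nat.cast_succ, add_mul, one_mul]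
  have h3 := (hm A A hA hA).comp (tendsto_natCast_atTop_atTop.atTop_mul_const (abs_pos.2 h0))
  simp only [Function.comp_def, h2, inter_self] at h3
  have h4 := tendsto_nhds_unique tendsto_const_nhds h3
  rw [eventuallyConst_set', ae_eq_empty, ae_eq_univ, prob_compl_eq_zero_iff hA]
  rcases eq_or_ne ((Q : Measure C(ℝ, ℝ)).real A) 0 with h | h
  · exact Or.inl ((measureReal_eq_zero_iff).1 h)
  · refine Or.inr ?_
    have h5 : (Q : Measure C(ℝ, ℝ)).real A = 1 := by
      have := mul_left_cancel₀ h ((mul_one _).trans h4)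
      exact this.symm
    exact (ENNReal.toReal_eq_one_iff _).1 h5

end Vale.Agent.N146.Proc
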