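import Vale.Agent.N146.Proc.Mix
import Vale.Agent.N146.Proc.Lim

/-!
# P146, process limit: tightness and the limit processes (helper75)
-/

open MeasureTheory ProbabilityTheory Set Filter Topology

namespace Vale.Agent.N146.Proc

open Vale.Agent.P146 Vale.Agent.P146.H196 Vale.Agent.P146.H605

variable {n : ℕ} {b : ℝ}

lemma path_apply (w : (Pair n → ℝ) × (Pair n → ℝ)) (τ : ℝ) : path n b w τ =
    (freeEnergy n b (rot n (τ / (n : ℝ) ^ (1 / 6 : ℝ)) w) - meanF n b) / (n : ℝ) ^ (1 / 6 : ℝ) := rfl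

lemma shift_path (s : ℝ) (w : (Pair n → ℝ) × (Pair n → ℝ)) :
    shift s (path n b w) = path n b (Rot n (s / (n : ℝ) ^ (1 / 6 : ℝ)) w) := by
  ext τ
  change path n b w (τ + s) = _
  rw [path_apply, path_apply, rot_Rot, add_div]

lemma rev_path (w : (Pair n → ℝ) × (Pair n → ℝ)) :
    rev (path n b w) = path n b (lin2 (Pair n) 1 0 0 (-1) w) := by
  ext τ
  change path n b w (-τ) = _
  rw [path_apply, path_apply]
  congr 3
  funext p
  simp [rot, lin2_apply, neg_div]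

/-- the covariance of the path -/
lemma cov_path {τ : ℝ} (hn : 1 ≤ n) (h1 : |τ| ≤ (n : ℝ) ^ (1 / 6 : ℝ)) :
    ∫ w, path n b w 0 * path n b w τ ∂(PP n) =
      crossCov n b (Real.cos (τ / (n : ℝ) ^ (1 / 6 : ℝ))) / (n : ℝ) ^ (1 / 3 : ℝ) := by
  have hN1 := N_ge hn
  have h0 : 0 ≤ Real.cos (τ / (n : ℝ) ^ (1 / 6 : ℝ) - 0 / (n : ℝ) ^ (1 / 6 : ℝ)) := by
    refine (Real.cos_pos_of_le_one ?_).le
    rw [zero_div, sub_zero, abs_div, abs_of_pos (show 0 < (n : ℝ) ^ (1 / 6 : ℝ) by linarith),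
      div_le_one (by linarith)]
    exact h1
  have k := cov_rot' (n := n) (b := b) h0
  rw [zero_div, sub_zero] at k
  rw [← k, ← integral_div, ← N_sq]
  refine integral_congr_ae (Eventually.of_forall fun w => ?_)
  simp only [path_apply, zero_div]
  rw [div_mul_div_comm, sq]

lemma var_cross (n : ℕ) (b : ℝ) : Var[freeEnergy n b; disorder n] = crossCov n b 1 := by
  have k := cov_rot (n := n) (b := b) (θ := 0) (θ' := 0) (by simp)
  have k2 := sq_rot (n := n) (b := b) 0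
  simp only [sub_self, Real.cos_zero, ← sq] at k
  linarith

lemma int_path {f : ℝ → ℝ} (hf : Continuous f) (τ : ℝ) : ∫ w, f (path n b w τ) ∂(PP n) =
    ∫ g, f ((freeEnergy n b g - meanF n b) / (n : ℝ) ^ (1 / 6 : ℝ)) ∂(disorder n) :=
  int_rot _ (f := fun g => f ((freeEnergy n b g - meanF n b) / (n : ℝ) ^ (1 / 6 : ℝ)))
    (hf.comp (((cont_free n b).sub continuous_const).div_const _))

lemma int4_path (τ : ℝ) : Integrable (fun w => path n b w τ ^ 4) (PP n) := by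
  have h : Integrable (fun g => ((freeEnergy n b g - meanF n b) / (n : ℝ) ^ (1 / 6 : ℝ)) ^ 4)
      (disorder n) := by
    simp only [div_eq_inv_mul]
    exact ((((freeEnergy_dom n b).sub (Dom.const _)).const_mul _).pow 4).integrable
  exact (mp_rot (τ / (n : ℝ) ^ (1 / 6 : ℝ))).integrable_comp_of_integrable h

/-- The input: the fourth moment. -/
def M4 (b : ℝ) : Prop := ∃ A : ℝ, ∀ n : ℕ, 2 ≤ n →
  ∫ g, ((freeEnergy n b g - meanF n b) / (n : ℝ) ^ (1 / 6 : ℝ)) ^ 4 ∂(disorder n) ≤ A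

/-- the near bound in the scaling window -/
lemma near_bound (h : CW b) : ∃ C : ℝ, 0 < C ∧ ∀ n : ℕ, 2 ≤ n → ∀ δ : ℝ, δ ≠ 0 →
    |δ| ≤ (n : ℝ) ^ (1 / 6 : ℝ) →
    0 ≤ crossCov n b (Real.cos (δ / (n : ℝ) ^ (1 / 6 : ℝ))) / (n : ℝ) ^ (1 / 3 : ℝ) ∧
    crossCov n b (Real.cos (0 / (n : ℝ) ^ (1 / 6 : ℝ))) / (n : ℝ) ^ (1 / 3 : ℝ) -
      crossCov n b (Real.cos (δ / (n : ℝ) ^ (1 / 6 : ℝ))) / (n : ℝ) ^ (1 / 3 : ℝ) ≤
      C * |δ| ^ (1 / 500 : ℝ) := by
  obtain ⟨C, hC, h⟩ := h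
  refine ⟨C, by linarith, fun n hn δ hδ h1 => ?_⟩
  have hN1 := N_ge (n := n) (by omega)
  obtain ⟨s1, s2, s3, -⟩ := share hN1 hδ h1
  obtain ⟨k0, -, k, -⟩ := (h n hn).2 _ s1 s2
  rw [sub_sub_cancel] at k k0
  rw [← N_sq] at k ⊢
  refine ⟨by positivity, ?_⟩
  rw [zero_div, Real.cos_zero, ← var_cross, ← sub_div, div_le_iff₀ (by positivity)]
  refine k.trans ?_
  have h2 := Real.rpow_le_rpow (by positivity) s3 (show (0 : ℝ) ≤ 1 / 1000 by norm_num)
  rw [sq_rpow, show (2 * (1 / 1000) : ℝ) = 1 / 500 by norm_num] at h2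
  calc _ ≤ C * ((n : ℝ) ^ (1 / 6 : ℝ)) ^ 2 * |δ| ^ (1 / 500 : ℝ) :=
        mul_le_mul_of_nonneg_left h2 (by positivity)
    _ = _ := by ring

lemma N_tendsto {φ : ℕ → ℕ} (hφ : Tendsto φ atTop atTop) :
    Tendsto (fun k => (φ k : ℝ) ^ (1 / 6 : ℝ)) atTop atTop :=
  (tendsto_rpow_atTop (by norm_num)).comp (tendsto_natCast_atTop_atTop.comp hφ)

variable [MeasurableSpace C(ℝ, ℝ)] [BorelSpace C(ℝ, ℝ)]

lemma mp_path : MeasurePreserving (path n b) (PP n) (lawP b n : Measure C(ℝ, ℝ)) :=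
  ⟨(cont_path n b).measurable, rfl⟩

lemma int_lawP {f : C(ℝ, ℝ) → ℝ} (hf : Continuous f) :
    ∫ y, f y ∂(lawP b n : Measure C(ℝ, ℝ)) = ∫ w, f (path n b w) ∂(PP n) :=
  integral_map (cont_path n b).measurable.aemeasurable hf.aestronglyMeasurable

lemma integrable_lawP {f : C(ℝ, ℝ) → ℝ} (hf : Continuous f)
    (h : Integrable (fun w => f (path n b w)) (PP n)) :
    Integrable f (lawP b n : Measure C(ℝ, ℝ)) :=
  (integrable_map_measure hf.aestronglyMeasurable (cont_path n b).measurable.aemeasurable).2 h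

lemma real_lawP {A : Set C(ℝ, ℝ)} (hA : IsClosed A) :
    (lawP b n : Measure C(ℝ, ℝ)).real A = (PP n).real (path n b ⁻¹' A) :=
  map_measureReal_apply (cont_path n b).measurable hA.measurableSet

lemma inv_lawP {T : C(ℝ, ℝ) → C(ℝ, ℝ)} (hT : Continuous T)
    {R : (Pair n → ℝ) × (Pair n → ℝ) → (Pair n → ℝ) × (Pair n → ℝ)}
    (hR : MeasurePreserving R (PP n) (PP n)) (e : ∀ w, T (path n b w) = path n b (R w)) :
    (lawP b n).map hT.measurable.aemeasurable = lawP b n := by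
  apply Subtype.ext
  change ((PP n).map (path n b)).map T = (PP n).map (path n b)
  rw [Measure.map_map hT.measurable (cont_path n b).measurable,
    show T ∘ path n b = path n b ∘ R from funext e]
  exact (mp_path.comp hR).map_eq

lemma inv_lim {φ : ℕ → ℕ} {Q : ProbabilityMeasure C(ℝ, ℝ)}
    (hl : Tendsto (lawP b ∘ φ) atTop (𝓝 Q)) {T : C(ℝ, ℝ) → C(ℝ, ℝ)} (hT : Continuous T)
    (e : ∀ n, (lawP b n).map hT.measurable.aemeasurable = lawP b n) :
    MeasurePreserving T (Q : Measure C(ℝ, ℝ)) Q := by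
  have h1 := ProbabilityMeasure.tendsto_map_of_tendsto_of_continuous _ _ hl hT
  simp only [Function.comp_apply, e] at h1
  exact ⟨hT.measurable, congrArg ProbabilityMeasure.toMeasure (tendsto_nhds_unique h1 hl)⟩

/-- the tails of the path laws -/
theorem tails_lawP (hb : 1 < b) (h : CW b) : ∃ c C : ℝ, 0 < c ∧ 0 < C ∧ ∀ n : ℕ, 2 ≤ n →
    Tails (1 / 2000) c C (lawP b n : Measure C(ℝ, ℝ)) := by
  obtain ⟨c, C, hc, hC, hi⟩ := inc_tail hb h
  obtain ⟨D, hD, h⟩ := h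
  refine ⟨c, C + D, hc, by linarith, fun n hn => ⟨fun M hM => ?_, fun σ τ h1 h2 u hu => ?_⟩⟩
  · rw [real_lawP (isClosed_le continuous_const (by fun_prop))]
    have hN1 := N_ge (n := n) (by omega)
    have hL : MemLp (fun w => path n b w 0) 2 (PP n) := by
      simp only [path_apply, div_eq_inv_mul (_ - _)]
      exact ((memLp_rot _).sub (memLp_const _)).const_mul _
    have k := mul_meas_ge_le_integral_of_nonneg (μ := PP n) (f := fun w => path n b w 0 ^ 2)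
      (Eventually.of_forall fun w => sq_nonneg _) hL.integrable_sq (M ^ 2)
    have k2 := cov_path (n := n) (b := b) (τ := 0) (by omega) (by rw [abs_zero]; linarith)
    simp only [← sq, zero_div, Real.cos_zero, ← var_cross] at k2
    have k3 : Var[freeEnergy n b; disorder n] / (n : ℝ) ^ (1 / 3 : ℝ) ≤ D := by
      rw [div_le_iff₀ (by rw [← N_sq]; positivity)]
      exact (h n hn).1
    have e : path n b ⁻¹' {y | M ≤ |y 0|} = {w | M ^ 2 ≤ path n b w 0 ^ 2} := by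
      ext w
      simp only [mem_preimage, mem_ofPred_eq]
      rw [sq_le_sq, abs_of_pos hM]
    rw [e, le_div_iff₀ (by positivity)]
    linarith
  · rw [real_lawP (isClosed_le continuous_const (by fun_prop)),
      show (2 * (1 / 2000) : ℝ) = 1 / 1000 by norm_num]
    refine (hi n hn σ τ h1 h2 u hu).trans ?_
    exact mul_le_mul_of_nonneg_right (by linarith) (Real.exp_pos _).le

/-- **Tightness of the path laws.** -/
theorem tight_lawP (hb : 1 < b) (h : CW b) :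
    IsTightMeasureSet {(lawP b n : Measure C(ℝ, ℝ)) | n} := by
  obtain ⟨c, C, hc, hC, h⟩ := tails_lawP hb h
  have h1 : IsTightMeasureSet {μ | ∃ n, 2 ≤ n ∧ (lawP b n : Measure C(ℝ, ℝ)) = μ} := by
    refine tight_of (γ := 1 / 2000) (by norm_num) hc hC.le ?_
    rintro _ ⟨n, hn, rfl⟩
    exact ⟨inferInstance, h n hn⟩
  have h2 : ∀ n, IsTightMeasureSet {(lawP b n : Measure C(ℝ, ℝ))} := fun n =>
    isTightMeasureSet_singleton
  refine (((h2 0).union (h2 1)).union h1).subset ?_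
  rintro _ ⟨n, rfl⟩
  rcases n with _ | _ | n
  · exact Or.inl (Or.inl rfl)
  · exact Or.inl (Or.inr rfl)
  · exact Or.inr ⟨n + 2, by omega, rfl⟩

theorem subseq_lawP (hb : 1 < b) (h : CW b) (φ : ℕ → ℕ) : ∃ ψ : ℕ → ℕ, StrictMono ψ ∧
    ∃ Q : ProbabilityMeasure C(ℝ, ℝ), Tendsto (lawP b ∘ φ ∘ ψ) atTop (𝓝 Q) := by
  have h1 : IsCompact (closure (range (lawP b))) := by
    refine isCompact_closure_of_isTightMeasureSet ((tight_lawP hb h).subset ?_)
    rintro _ ⟨_, ⟨n, rfl⟩, rfl⟩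
    exact ⟨n, rfl⟩
  obtain ⟨Q, -, ψ, hψ, hl⟩ := h1.tendsto_subseq (x := lawP b ∘ φ)
    fun k => subset_closure ⟨φ k, rfl⟩
  exact ⟨ψ, hψ, Q, hl⟩

section lim

variable {φ : ℕ → ℕ} {Q : ProbabilityMeasure C(ℝ, ℝ)}

lemma shift_lim (hl : Tendsto (lawP b ∘ φ) atTop (𝓝 Q)) (s : ℝ) :
    MeasurePreserving (shift s) (Q : Measure C(ℝ, ℝ)) Q :=
  inv_lim hl (cont_shift s) fun n => inv_lawP (cont_shift s) (mp_Rot n _) (shift_path s)

lemma rev_lim (hl : Tendsto (lawP b ∘ φ) atTop (𝓝 Q)) :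
    MeasurePreserving rev (Q : Measure C(ℝ, ℝ)) Q :=
  inv_lim hl cont_rev fun _ => inv_lawP cont_rev
    (mp_lin2 (by norm_num) (by norm_num) (by norm_num)) rev_path

lemma marg_lim (hl : Tendsto (lawP b ∘ φ) atTop (𝓝 Q)) (law : ℕ → ProbabilityMeasure ℝ)
    (hlaw : ∀ n, (law n : Measure ℝ) = (disorder n).map
      fun g => (freeEnergy n b g - meanF n b) / (n : ℝ) ^ (1 / 6 : ℝ)) :
    ∃ ν : ProbabilityMeasure ℝ, Tendsto (law ∘ φ) atTop (𝓝 ν) ∧
      ∀ τ : ℝ, (Q : Measure C(ℝ, ℝ)).map (fun y => y τ) = ν := by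
  have hc : ∀ τ : ℝ, Continuous fun y : C(ℝ, ℝ) => y τ := fun τ => continuous_eval_const τ
  have h1 : ∀ τ, Tendsto (law ∘ φ) atTop (𝓝 (Q.map (hc τ).measurable.aemeasurable)) := by
    intro τ
    refine (ProbabilityMeasure.tendsto_map_of_tendsto_of_continuous _ _ hl (hc τ)).congr
      fun k => Subtype.ext ?_
    change ((PP (φ k)).map (path (φ k) b)).map (fun y => y τ) = (law (φ k) : Measure ℝ)
    rw [hlaw, Measure.map_map (hc τ).measurable (cont_path _ b).measurable,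
      ← (mp_rot (n := φ k) (τ / (φ k : ℝ) ^ (1 / 6 : ℝ))).map_eq]
    exact (Measure.map_map (((cont_free _ b).sub continuous_const).div_const _).measurable
      (cont_rot' _).measurable).symm
  exact ⟨_, h1 0, fun τ => congrArg ProbabilityMeasure.toMeasure
    (tendsto_nhds_unique (h1 τ) (h1 0))⟩

/-- the covariance of the limit -/
lemma cov_lim (h4 : M4 b) (hφ : Tendsto φ atTop atTop) (hl : Tendsto (lawP b ∘ φ) atTop (𝓝 Q))
    (τ : ℝ) : Integrable (fun y => y 0 * y τ) (Q : Measure C(ℝ, ℝ)) ∧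
      Tendsto (fun k => crossCov (φ k) b (Real.cos (τ / (φ k : ℝ) ^ (1 / 6 : ℝ))) /
        (φ k : ℝ) ^ (1 / 3 : ℝ)) atTop (𝓝 (∫ y, y 0 * y τ ∂(Q : Measure C(ℝ, ℝ)))) := by
  obtain ⟨A, hA⟩ := h4
  have hf : Continuous fun y : C(ℝ, ℝ) => y 0 * y τ := by fun_prop
  have h1 : ∀ᶠ k in atTop, Integrable (fun y => (y 0 * y τ) ^ 2)
      ((lawP b ∘ φ) k : Measure C(ℝ, ℝ)) ∧
      ∫ y, (y 0 * y τ) ^ 2 ∂((lawP b ∘ φ) k : Measure C(ℝ, ℝ)) ≤ A := by
    filter_upwards [hφ.eventually_ge_atTop 2] with k hk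
    have i0 := int4_path (n := φ k) (b := b) 0
    have i1 := int4_path (n := φ k) (b := b) τ
    have hle : ∀ w, (path (φ k) b w 0 * path (φ k) b w τ) ^ 2 ≤
        (path (φ k) b w 0 ^ 4 + path (φ k) b w τ ^ 4) / 2 := fun w => by
      nlinarith [sq_nonneg (path (φ k) b w 0 ^ 2 - path (φ k) b w τ ^ 2)]
    have i2 : Integrable (fun w => (path (φ k) b w 0 * path (φ k) b w τ) ^ 2) (PP (φ k)) := by
      refine ((i0.add i1).div_const 2).mono'
        ((hf.pow 2).comp (cont_path _ b)).aestronglyMeasurable (Eventually.of_forall fun w => ?_)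
      rw [Real.norm_eq_abs, abs_of_nonneg (sq_nonneg _)]
      exact hle w
    refine ⟨integrable_lawP (hf.pow 2) i2, ?_⟩
    rw [Function.comp_apply, int_lawP (f := fun y => (y 0 * y τ) ^ 2) (hf.pow 2)]
    refine (integral_mono i2 ((i0.add i1).div_const 2) hle).trans ?_
    simp only [Pi.add_apply]
    rw [integral_div, integral_add i0 i1, int_path (continuous_pow 4), int_path (continuous_pow 4)]
    linarith [hA _ hk]
  refine ⟨((memLp_two_iff_integrable_sq hf.aestronglyMeasurable).2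
    (int_le_lim hl (hf.pow 2) (fun y => sq_nonneg _) h1).1).integrable one_le_two, ?_⟩
  refine (tendsto_int hl hf h1).congr' ?_
  filter_upwards [hφ.eventually_ge_atTop 1, (N_tendsto hφ).eventually_ge_atTop |τ|] with k hk hk2
  rw [Function.comp_apply, int_lawP hf, cov_path hk hk2]

/-- decorrelation of trigonometric functions in the limit -/
lemma trig_lim (h : CW b) (hφ : Tendsto φ atTop atTop) (hl : Tendsto (lawP b ∘ φ) atTop (𝓝 Q))
    (s s' : Finset ℝ) (u v : ℝ → ℝ) (c c' : ℝ) :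
    Tendsto (fun τ => ∫ y, trig s u c y * trig s' v c' (shift τ y) ∂(Q : Measure C(ℝ, ℝ))) atTop
      (𝓝 ((∫ y, trig s u c y ∂(Q : Measure C(ℝ, ℝ))) *
        ∫ y, trig s' v c' y ∂(Q : Measure C(ℝ, ℝ)))) := by
  obtain ⟨C, -, h⟩ := cos_cov h
  have hw := ProbabilityMeasure.tendsto_iff_forall_integral_tendsto.1 hl
  have h0 : Tendsto (fun τ : ℝ => ∑ q ∈ s ×ˢ s', |u q.1| * |v q.2| *
      (C * |q.2 + τ - q.1| ^ (-(1 / 500) : ℝ) + 0)) atTop
      (𝓝 (∑ q ∈ s ×ˢ s', |u q.1| * |v q.2| * (C * 0 + 0))) := by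
    refine tendsto_finsetSum _ fun q _ => (((tendsto_rpow_neg_atTop (by norm_num)).comp
      (tendsto_abs_atTop_atTop.comp ?_)).const_mul C).add_const 0 |>.const_mul _
    exact tendsto_atTop_add_const_right _ (-q.1) (tendsto_atTop_add_const_left _ q.2 tendsto_id)
  simp only [mul_zero, add_zero, Finset.sum_const_zero] at h0
  rw [tendsto_iff_dist_tendsto_zero]
  refine squeeze_zero' (Eventually.of_forall fun _ => dist_nonneg) ?_ h0
  have hev : ∀ᶠ τ : ℝ in atTop, ∀ q ∈ s ×ˢ s', q.1 - q.2 < τ :=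
    (eventually_all_finset _).2 fun q _ => eventually_gt_atTop _
  filter_upwards [hev] with τ hτ
  obtain ⟨g, hg⟩ : ∃ g : BoundedContinuousFunction C(ℝ, ℝ) ℝ, ∀ y,
      g y = trig s' v c' (shift τ y) :=
    ⟨(trig s' v c').compContinuous ⟨shift τ, cont_shift τ⟩, fun _ => rfl⟩
  have e : ∫ y, trig s' v c' y ∂(Q : Measure C(ℝ, ℝ)) = ∫ y, g y ∂(Q : Measure C(ℝ, ℝ)) := by
    simp only [hg]
    conv_lhs => rw [← (shift_lim hl τ).map_eq]
    exact integral_map (cont_shift τ).measurable.aemeasurable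
      (trig s' v c').continuous.aestronglyMeasurable
  have l1 := ((hw (trig s u c * g)).sub ((hw (trig s u c)).mul (hw g))).abs
  have l2 : Tendsto (fun k => ∑ q ∈ s ×ˢ s', |u q.1| * |v q.2| *
      (C * |q.2 + τ - q.1| ^ (-(1 / 500) : ℝ) + b ^ 2 / ((φ k : ℝ) ^ (1 / 6 : ℝ)) ^ 2)) atTop
      (𝓝 (∑ q ∈ s ×ˢ s', |u q.1| * |v q.2| * (C * |q.2 + τ - q.1| ^ (-(1 / 500) : ℝ) + 0))) :=
    tendsto_finsetSum _ fun q _ => ((tendsto_const_nhds.div_atTop
      ((tendsto_pow_atTop two_ne_zero).comp (N_tendsto hφ))).const_add _).const_mul _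
  have hN : ∀ᶠ k in atTop, ∀ q ∈ s ×ˢ s', |q.2 + τ - q.1| ≤ (φ k : ℝ) ^ (1 / 6 : ℝ) :=
    (eventually_all_finset _).2 fun q _ => (N_tendsto hφ).eventually_ge_atTop _
  have l3 := le_of_tendsto_of_tendsto l1 l2 (by
    filter_upwards [hN, hφ.eventually_ge_atTop 2] with k hk hk2
    rw [Function.comp_apply, int_lawP (trig s u c * g).continuous,
      int_lawP (trig s u c).continuous, int_lawP g.continuous]
    simp only [BoundedContinuousFunction.mul_apply, hg]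
    refine h _ hk2 s s' u (fun k => k) v (fun l => l + τ) c c' fun k hk' l hl' => ?_
    have hq : (k, l) ∈ s ×ˢ s' := Finset.mk_mem_product hk' hl'
    have := hτ _ hq
    exact ⟨by simp only at this ⊢; linarith, hk _ hq⟩)
  simp only [BoundedContinuousFunction.mul_apply, hg, add_zero] at l3
  rw [Real.dist_eq, e]
  simp only [hg]
  exact l3

end lim

/-- **The limit processes.** -/
theorem main (hb : 1 < b) (h : CW b) (h4 : M4 b) {v : ℝ} (hv : 0 < v)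
    (hlow : ∀ n : ℕ, 2 ≤ n → v * (n : ℝ) ^ (1 / 3 : ℝ) ≤ Var[freeEnergy n b; disorder n])
    (law : ℕ → ProbabilityMeasure ℝ) (hlaw : ∀ n, (law n : Measure ℝ) = (disorder n).map
      fun g => (freeEnergy n b g - meanF n b) / (n : ℝ) ^ (1 / 6 : ℝ)) :
    IsTightMeasureSet {(lawP b n : Measure C(ℝ, ℝ)) | n} ∧
    (∀ φ : ℕ → ℕ, ∃ ψ : ℕ → ℕ, StrictMono ψ ∧
      ∃ Q : ProbabilityMeasure C(ℝ, ℝ), Tendsto (lawP b ∘ φ ∘ ψ) atTop (𝓝 Q)) ∧
    ∃ c C : ℝ, 0 < c ∧ 0 < C ∧ ∀ φ : ℕ → ℕ, Tendsto φ atTop atTop →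
      ∀ Q : ProbabilityMeasure C(ℝ, ℝ), Tendsto (lawP b ∘ φ) atTop (𝓝 Q) →
      (∃ ν : ProbabilityMeasure ℝ, Tendsto (law ∘ φ) atTop (𝓝 ν) ∧
        ∀ τ : ℝ, (Q : Measure C(ℝ, ℝ)).map (fun y => y τ) = ν) ∧
      (∀ s, MeasurePreserving (shift s) (Q : Measure C(ℝ, ℝ)) Q) ∧
      MeasurePreserving rev (Q : Measure C(ℝ, ℝ)) Q ∧
      (∀ᵐ y ∂(Q : Measure C(ℝ, ℝ)), ∀ S : ℝ, ∃ K : ℝ, ∀ σ τ : ℝ, |σ| ≤ S → |τ| ≤ S →
        |y τ - y σ| ≤ K * |τ - σ| ^ (1 / 2000 : ℝ)) ∧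
      (∀ σ τ : ℝ, |τ - σ| ≤ 1 → ∀ u : ℝ, 0 ≤ u →
        (Q : Measure C(ℝ, ℝ)).real {y | u * |τ - σ| ^ (1 / 1000 : ℝ) < |y τ - y σ|} ≤
          C * Real.exp (-(c * u))) ∧
      (∀ τ : ℝ, Integrable (fun y => y 0 * y τ) (Q : Measure C(ℝ, ℝ)) ∧
        Tendsto (fun k => crossCov (φ k) b (Real.cos (τ / (φ k : ℝ) ^ (1 / 6 : ℝ))) /
          (φ k : ℝ) ^ (1 / 3 : ℝ)) atTop (𝓝 (∫ y, y 0 * y τ ∂(Q : Measure C(ℝ, ℝ))))) ∧
      c ≤ ∫ y, y 0 * y 0 ∂(Q : Measure C(ℝ, ℝ)) ∧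
      (∀ τ : ℝ, τ ≠ 0 → 0 ≤ ∫ y, y 0 * y τ ∂(Q : Measure C(ℝ, ℝ)) ∧
        ∫ y, y 0 * y τ ∂(Q : Measure C(ℝ, ℝ)) ≤ C * |τ| ^ (-(1 / 500) : ℝ) ∧
        ∫ y, y 0 * y 0 ∂(Q : Measure C(ℝ, ℝ)) - ∫ y, y 0 * y τ ∂(Q : Measure C(ℝ, ℝ)) ≤
          C * |τ| ^ (1 / 500 : ℝ)) ∧
      (∀ A B : Set C(ℝ, ℝ), MeasurableSet A → MeasurableSet B →
        Tendsto (fun τ => (Q : Measure C(ℝ, ℝ)).real (A ∩ shift τ ⁻¹' B)) atTop
          (𝓝 ((Q : Measure C(ℝ, ℝ)).real A * (Q : Measure C(ℝ, ℝ)).real B))) ∧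
      ∀ s : ℝ, s ≠ 0 → Ergodic (shift s) (Q : Measure C(ℝ, ℝ)) := by
  refine ⟨tight_lawP hb h, subseq_lawP hb h, ?_⟩
  obtain ⟨c, C, hc, hC, hT⟩ := tails_lawP hb h
  obtain ⟨C1, hC1, hfar⟩ := far_bound h
  obtain ⟨C2, hC2, hnear⟩ := near_bound h
  refine ⟨min c v, C + C1 + C2, lt_min hc hv, by positivity, fun φ hφ Q hl => ?_⟩
  have hT' : ∀ᶠ k in atTop, Tails (1 / 2000) c C ((lawP b ∘ φ) k : Measure C(ℝ, ℝ)) :=
    (hφ.eventually_ge_atTop 2).mono fun k hk => hT _ hk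
  have hmix := fun A B hA hB => mixing_sets (shift_lim hl)
    (mixing_of (shift_lim hl) (trig_lim h hφ hl)) (A := A) (B := B) hA hB
  have hcov := cov_lim h4 hφ hl
  refine ⟨marg_lim hl law hlaw, shift_lim hl, rev_lim hl, holder_lim (by norm_num) hc hC.le hT' hl,
    fun σ τ h1 u hu => ?_, hcov, ?_, fun τ hτ => ?_, hmix,
    fun s hs => ergodic_of (shift_lim hl) hmix hs⟩
  · rcases eq_or_ne σ τ with rfl | hne
    · simp only [sub_self, abs_zero, Real.zero_rpow (show (1 / 1000 : ℝ) ≠ 0 by norm_num),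
        mul_zero, lt_self_iff_false, ofPred_false, measureReal_empty]
      positivity
    have k1 := ProbabilityMeasure.le_liminf_measure_open_of_tendsto hl
      (G := {y | u * |τ - σ| ^ (1 / 1000 : ℝ) < |y τ - y σ|})
      (isOpen_lt continuous_const (by fun_prop))
    have k2 : liminf (fun k => ((lawP b ∘ φ) k : Measure C(ℝ, ℝ))
        {y | u * |τ - σ| ^ (1 / 1000 : ℝ) < |y τ - y σ|}) atTop ≤
        ENNReal.ofReal (C * Real.exp (-(c * u))) := by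
      refine liminf_le_of_frequently_le' (Eventually.frequently ?_)
      filter_upwards [hT'] with k hk
      have k3 := hk.2 σ τ h1 hne u hu
      rw [show (2 * (1 / 2000) : ℝ) = 1 / 1000 by norm_num] at k3
      rw [← ofReal_measureReal]
      refine ENNReal.ofReal_le_ofReal (le_trans (measureReal_mono fun y hy => ?_) k3)
      exact le_of_lt (show u * |τ - σ| ^ (1 / 1000 : ℝ) < |y τ - y σ| from hy)
    refine (ENNReal.toReal_le_of_le_ofReal (by positivity) (k1.trans k2)).trans ?_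
    refine mul_le_mul (by linarith) (Real.exp_le_exp.2 (neg_le_neg ?_)) (Real.exp_pos _).le
      (by positivity)
    exact mul_le_mul_of_nonneg_right (min_le_left _ _) hu
  · refine (min_le_right _ _).trans (ge_of_tendsto (hcov 0).2 ?_)
    filter_upwards [hφ.eventually_ge_atTop 2] with k hk
    have hN1 := N_ge (n := φ k) (by omega)
    rw [zero_div, Real.cos_zero, ← var_cross, le_div_iff₀ (by rw [← N_sq]; positivity)]
    exact hlow _ hk
  · have hev := (hφ.eventually_ge_atTop 2).and ((N_tendsto hφ).eventually_ge_atTop |τ|)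
    have p1 : 0 < |τ| ^ (-(1 / 500) : ℝ) := Real.rpow_pos_of_pos (abs_pos.2 hτ) _
    have p2 : 0 < |τ| ^ (1 / 500 : ℝ) := Real.rpow_pos_of_pos (abs_pos.2 hτ) _
    refine ⟨ge_of_tendsto (hcov τ).2 (hev.mono fun k hk => (hnear _ hk.1 τ hτ hk.2).1),
      (le_of_tendsto (hcov τ).2 (hev.mono fun k hk => ?_)).trans
        (mul_le_mul_of_nonneg_right (show C1 ≤ _ by linarith) p1.le),
      (le_of_tendsto ((hcov 0).2.sub (hcov τ).2)
        (hev.mono fun k hk => (hnear _ hk.1 τ hτ hk.2).2)).trans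
        (mul_le_mul_of_nonneg_right (by linarith) p2.le)⟩
    rw [← N_sq]
    exact hfar _ hk.1 τ hτ hk.2

end Vale.Agent.N146.Proc
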