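import Vale.Agent.N146.Proc.Inc
import Vale.Agent.P146.H605.Chaos

/-!
# P146, process limit: decorrelation of trigonometric functions of the path (helper75)

`cov_le`: a comparison of Gaussian covariances from a pointwise comparison of gradients.
`cos_cov`: the covariance of two cosines of linear combinations of values of the path.
-/

open MeasureTheory ProbabilityTheory Set

namespace Vale.Agent.N146.Proc

open Vale.Agent.P146 Vale.Agent.P146.H196 Vale.Agent.P146.H605 Vale.Agent.P146.Ub.Cv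

section abstr

variable {ι : Type*} [Fintype ι] [DecidableEq ι] {F F' : (ι → ℝ) → ℝ}
  {G G' : ι → (ι → ℝ) → ℝ}

/-- a regular function with its gradient -/
def RG (F : (ι → ℝ) → ℝ) (G : ι → (ι → ℝ) → ℝ) : Prop := ∃ H B, Reg F G H B

lemma RG.dom (h : RG F G) : Dom F := by
  obtain ⟨_, _, h⟩ := h
  exact h.F_dom

lemma RG.gdom (h : RG F G) (i : ι) : Dom (G i) := by
  obtain ⟨_, _, h⟩ := h
  exact h.G_dom i

lemma RG.lin (a a' : ℝ) (h : RG F G) (h' : RG F' G') :
    RG (fun g => a * F g + a' * F' g) (fun i g => a * G i g + a' * G' i g) := by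
  obtain ⟨H, B, h⟩ := h
  obtain ⟨H', B', h'⟩ := h'
  refine ⟨fun i g => a * H i g + a' * H' i g, |a| * B + |a'| * B',
    (h.F_dom.const_mul a).add (h'.F_dom.const_mul a'),
    fun i => ((h.G_dom i).const_mul a).add ((h'.G_dom i).const_mul a'),
    fun i => ((h.H_dom i).const_mul a).add ((h'.H_dom i).const_mul a'), fun i g => ?_,
    fun g => ?_, fun i g t => ((h.G_diff i g t).const_mul a).add ((h'.G_diff i g t).const_mul a')⟩
  · refine (abs_add_le _ _).trans ?_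
    rw [abs_mul, abs_mul]
    exact add_le_add (mul_le_mul_of_nonneg_left (h.G_bd i g) (abs_nonneg _))
      (mul_le_mul_of_nonneg_left (h'.G_bd i g) (abs_nonneg _))
  · refine (((h.F_diff g).const_mul a).add ((h'.F_diff g).const_mul a')).congr_fderiv ?_
    rw [Finset.smul_sum, Finset.smul_sum, ← Finset.sum_add_distrib]
    exact Finset.sum_congr rfl fun i _ => by rw [smul_smul, smul_smul, add_smul]

lemma RG.const (c : ℝ) : RG (fun _ : ι → ℝ => c) (fun _ _ => 0) :=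
  ⟨fun _ _ => 0, 0, Dom.const c, fun _ => Dom.const 0, fun _ => Dom.const 0,
    fun _ _ => by simp, fun g => by simpa using hasFDerivAt_const c g,
    fun _ _ t => hasDerivAt_const t 0⟩

lemma RG.congr (h : RG F G) (e : ∀ g, F' g = F g) (e' : ∀ i g, G' i g = G i g) : RG F' G' := by
  have h1 : F' = F := funext e
  have h2 : G' = G := funext fun i => funext (e' i)
  rwa [h1, h2]

lemma RG.sum {κ : Type*} (s : Finset κ) (u : κ → ℝ) (c : ℝ) {A : κ → (ι → ℝ) → ℝ}
    {D : κ → ι → (ι → ℝ) → ℝ} (h : ∀ k, RG (A k) (D k)) :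
    RG (fun g => ∑ k ∈ s, u k * A k g + c) (fun i g => ∑ k ∈ s, u k * D k i g) := by
  classical
  induction s using Finset.induction_on with
  | empty => exact (RG.const c).congr (by simp) (by simp)
  | insert a s ha ih =>
    refine (RG.lin (u a) 1 (h a) ih).congr (fun g => ?_) (fun i g => ?_)
    · rw [Finset.sum_insert ha]
      ring
    · rw [Finset.sum_insert ha]
      ring

lemma RG.cos (h : RG F G) :
    RG (fun g => Real.cos (F g)) (fun i g => -Real.sin (F g) * G i g) := by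
  obtain ⟨H, B, h⟩ := h
  have dc : Dom (fun g => Real.cos (F g)) :=
    Dom.of_bounded (Real.continuous_cos.comp h.F_dom.cont) 1 fun g => Real.abs_cos_le_one _
  have ds : Dom (fun g => -Real.sin (F g)) :=
    (Dom.of_bounded (Real.continuous_sin.comp h.F_dom.cont) 1 fun g => Real.abs_sin_le_one _).neg
  refine ⟨fun i g => -(Real.cos (F g) * G i g) * G i g + -Real.sin (F g) * H i g, |B|, dc,
    fun i => ds.mul (h.G_dom i),
    fun i => ((dc.mul (h.G_dom i)).neg.mul (h.G_dom i)).add (ds.mul (h.H_dom i)),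
    fun i g => ?_, fun g => ?_, fun i g t => ?_⟩
  · rw [abs_mul, abs_neg]
    have h1 := mul_le_mul (Real.abs_sin_le_one (F g)) ((h.G_bd i g).trans (le_abs_self B))
      (abs_nonneg _) zero_le_one
    linarith
  · refine ((Real.hasDerivAt_cos (F g)).comp_hasFDerivAt g (h.F_diff g)).congr_fderiv ?_
    rw [Finset.smul_sum]
    exact Finset.sum_congr rfl fun i _ => by rw [smul_smul]
  · exact ((h.coord g i t).sin.neg).mul (h.G_diff i g t)

/-- the disorder at angle `α`, as a function of the doubled disorder -/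
noncomputable def rr (α : ℝ) (g : ι ⊕ ι → ℝ) : ι → ℝ :=
  mix (Real.cos α) (Real.sin α) (fun i => g (Sum.inl i)) (fun i => g (Sum.inr i))

/-- the gradient at angle `α` -/
noncomputable def gr (α : ℝ) (G : ι → (ι → ℝ) → ℝ) : ι ⊕ ι → (ι ⊕ ι → ℝ) → ℝ :=
  Sum.elim (fun i g => Real.cos α * G i (rr α g)) (fun i g => Real.sin α * G i (rr α g))

omit [DecidableEq ι] in
lemma dom_rr {f : (ι → ℝ) → ℝ} (hf : Dom f) (α : ℝ) : Dom (fun g => f (rr α g)) := by
  obtain ⟨C, k, hC, hk, hb⟩ := hf.bound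
  refine ⟨hf.cont.comp (cont_mix continuous_const continuous_const (by fun_prop) (by fun_prop)),
    C, k, hC, hk, fun g => (hb _).trans ?_⟩
  have h := sum_mix_le (Real.abs_cos_le_one α) (Real.abs_sin_le_one α)
    (fun i => g (Sum.inl i)) (fun i => g (Sum.inr i))
  rw [← Fintype.sum_sum_type (fun j => |g j|)] at h
  have h2 : ∑ i, |rr α g i| ≤ ∑ j, |g j| := h
  gcongr

omit [Fintype ι] in
lemma rr_left (α : ℝ) (g : ι ⊕ ι → ℝ) (i : ι) (t : ℝ) :
    rr α (Function.update g (Sum.inl i) t) =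
      Function.update (rr α g) i (Real.cos α * t + Real.sin α * g (Sum.inr i)) := by
  funext j
  by_cases h : j = i
  · subst h
    simp [rr, mix]
  · simp [rr, mix, h]

omit [Fintype ι] in
lemma rr_right (α : ℝ) (g : ι ⊕ ι → ℝ) (i : ι) (t : ℝ) :
    rr α (Function.update g (Sum.inr i) t) =
      Function.update (rr α g) i (Real.cos α * g (Sum.inl i) + Real.sin α * t) := by
  funext j
  by_cases h : j = i
  · subst h
    simp [rr, mix]
  · simp [rr, mix, h]

lemma RG.rr (h : RG F G) (α : ℝ) : RG (fun g => F (rr α g)) (gr α G) := by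
  obtain ⟨H, B, h⟩ := h
  refine ⟨Sum.elim (fun i g => Real.cos α * (H i (Proc.rr α g) * Real.cos α))
    (fun i g => Real.sin α * (H i (Proc.rr α g) * Real.sin α)), |B|, dom_rr h.F_dom α,
    fun j => ?_, fun j => ?_, fun j g => ?_, fun g => ?_, fun j g t => ?_⟩
  · rcases j with i | i
    · exact (dom_rr (h.G_dom i) α).const_mul _
    · exact (dom_rr (h.G_dom i) α).const_mul _
  · rcases j with i | i
    · exact ((dom_rr (h.H_dom i) α).mul (Dom.const _)).const_mul _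
    · exact ((dom_rr (h.H_dom i) α).mul (Dom.const _)).const_mul _
  · rcases j with i | i
    · have h1 := mul_le_mul (Real.abs_cos_le_one α)
        ((h.G_bd i (Proc.rr α g)).trans (le_abs_self B)) (abs_nonneg _) zero_le_one
      rw [← abs_mul, one_mul] at h1
      exact h1
    · have h1 := mul_le_mul (Real.abs_sin_le_one α)
        ((h.G_bd i (Proc.rr α g)).trans (le_abs_self B)) (abs_nonneg _) zero_le_one
      rw [← abs_mul, one_mul] at h1
      exact h1
  · have h1 : HasFDerivAt (Proc.rr α : (ι ⊕ ι → ℝ) → ι → ℝ)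
        (ContinuousLinearMap.pi fun i => Real.cos α •
          ContinuousLinearMap.proj (R := ℝ) (φ := fun _ : ι ⊕ ι => ℝ) (Sum.inl i) +
          Real.sin α • ContinuousLinearMap.proj (R := ℝ) (φ := fun _ : ι ⊕ ι => ℝ) (Sum.inr i))
        g := by
      refine hasFDerivAt_pi.2 fun i => ?_
      exact ((hasFDerivAt_apply (Sum.inl i) g).const_mul _).add
        ((hasFDerivAt_apply (Sum.inr i) g).const_mul _)
    refine ((h.F_diff (Proc.rr α g)).comp g h1).congr_fderiv ?_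
    ext x
    simp only [ContinuousLinearMap.comp_apply, sum_apply, smul_apply,
      ContinuousLinearMap.proj_apply, ContinuousLinearMap.pi_apply, add_apply, smul_eq_mul,
      Fintype.sum_sum_type, gr, Sum.elim_inl, Sum.elim_inr]
    rw [← Finset.sum_add_distrib]
    exact Finset.sum_congr rfl fun i _ => by ring
  · rcases j with i | i
    · simp only [gr, Sum.elim_inl, rr_left]
      exact (comp_upd (f := G i) (f' := H i) (i := i) (z := Proc.rr α g)
        (fun t => h.G_diff i _ t) (lin_deriv _ _ t)).const_mul _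
    · simp only [gr, Sum.elim_inr, rr_right]
      exact (comp_upd (f := G i) (f' := H i) (i := i) (z := Proc.rr α g)
        (fun t => h.G_diff i _ t) (lin_deriv' _ _ t)).const_mul _

omit [DecidableEq ι] in
lemma gr_inner (α α' : ℝ) (x y : ι ⊕ ι → ℝ) :
    ∑ j, gr α G j x * gr α' G j y =
      Real.cos (α' - α) * ∑ i, G i (rr α x) * G i (rr α' y) := by
  rw [Fintype.sum_sum_type, ← Finset.sum_add_distrib, Finset.mul_sum, Real.cos_sub]
  refine Finset.sum_congr rfl fun i _ => ?_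
  simp only [gr, Sum.elim_inl, Sum.elim_inr]
  ring

/-- first copy -/
noncomputable def ca (θ : ℝ) (g : J3 ι → ℝ) : ι → ℝ :=
  mix (Real.cos θ) (Real.sin θ) (pu g) (pv g)

/-- second copy -/
noncomputable def cb (θ : ℝ) (g : J3 ι → ℝ) : ι → ℝ :=
  mix (Real.cos θ) (Real.sin θ) (pu g) (pw g)

omit [DecidableEq ι] in
lemma dom_ca (h : Dom F) (θ : ℝ) : Dom (fun g => F (ca θ g)) :=
  dom_uv h (Real.abs_cos_le_one θ) (Real.abs_sin_le_one θ)

omit [DecidableEq ι] in
lemma dom_cb (h : Dom F) (θ : ℝ) : Dom (fun g => F (cb θ g)) :=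
  dom_uw h (Real.abs_cos_le_one θ) (Real.abs_sin_le_one θ)

/-- the polarised interpolation -/
noncomputable def K2 (F F' : (ι → ℝ) → ℝ) (θ : ℝ) : ℝ :=
  (KK (fun g => 1 * F g + 1 * F' g) θ - KK (fun g => 1 * F g + -1 * F' g) θ) / 4

/-- the polarised derivative -/
noncomputable def P2 (G G' : ι → (ι → ℝ) → ℝ) (θ : ℝ) : ℝ :=
  ∫ g : J3 ι → ℝ, (∑ i, G i (ca θ g) * G' i (cb θ g) + ∑ i, G i (cb θ g) * G' i (ca θ g))
    ∂(gpi (J3 ι))

lemma dom_P2 (h : RG F G) (h' : RG F' G') (θ : ℝ) : Dom (fun g : J3 ι → ℝ =>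
    ∑ i, G i (ca θ g) * G' i (cb θ g) + ∑ i, G i (cb θ g) * G' i (ca θ g)) :=
  (Dom.sum _ fun i _ => (dom_ca (h.gdom i) θ).mul (dom_cb (h'.gdom i) θ)).add
    (Dom.sum _ fun i _ => (dom_cb (h.gdom i) θ).mul (dom_ca (h'.gdom i) θ))

lemma hasDerivAt_K2 (h : RG F G) (h' : RG F' G') (θ : ℝ) :
    HasDerivAt (K2 F F') (-(Real.sin θ * Real.cos θ) * P2 G G' θ) θ := by
  have k1 := RG.lin 1 1 h h'
  have k2 := RG.lin 1 (-1) h h'
  have d1 := Dom.sum Finset.univ fun i _ => (dom_ca (k1.gdom i) θ).mul (dom_cb (k1.gdom i) θ)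
  have d2 := Dom.sum Finset.univ fun i _ => (dom_ca (k2.gdom i) θ).mul (dom_cb (k2.gdom i) θ)
  obtain ⟨_, _, k1⟩ := k1
  obtain ⟨_, _, k2⟩ := k2
  refine (((hasDerivAt_KK k1 θ).sub (hasDerivAt_KK k2 θ)).div_const 4).congr_deriv ?_
  have e : phi (fun i g => 1 * G i g + 1 * G' i g) θ - phi (fun i g => 1 * G i g + -1 * G' i g) θ =
      2 * P2 G G' θ := by
    unfold P2
    rw [← integral_const_mul]
    refine (int_sub d1 d2).symm.trans (integral_congr_ae (Filter.Eventually.of_forall fun g => ?_))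
    simp only
    rw [← Finset.sum_sub_distrib, ← Finset.sum_add_distrib, Finset.mul_sum]
    exact Finset.sum_congr rfl fun i _ => by ring
  rw [← mul_sub, e]
  ring

lemma K2_zero (h : Dom F) (h' : Dom F') : K2 F F' 0 = ∫ g, F g * F' g ∂(gpi ι) := by
  have d1 := (h.const_mul 1).add (h'.const_mul 1)
  have d2 := (h.const_mul 1).add (h'.const_mul (-1))
  unfold K2
  rw [KK_zero d1, KK_zero d2, ← int_sub (d1.pow 2) (d2.pow 2), ← integral_div]
  refine integral_congr_ae (Filter.Eventually.of_forall fun g => ?_)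
  simp only
  ring

lemma K2_pi (h : Dom F) (h' : Dom F') :
    K2 F F' (Real.pi / 2) = (∫ g, F g ∂(gpi ι)) * ∫ g, F' g ∂(gpi ι) := by
  have d1 := (h.const_mul 1).add (h'.const_mul 1)
  have d2 := (h.const_mul 1).add (h'.const_mul (-1))
  unfold K2
  rw [KK_pi d1, KK_pi d2, int_add (h.const_mul 1) (h'.const_mul 1),
    int_add (h.const_mul 1) (h'.const_mul (-1)), integral_const_mul, integral_const_mul,
    integral_const_mul]
  ring

/-- the covariance -/
noncomputable def cv (F F' : (ι → ℝ) → ℝ) : ℝ :=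
  ∫ g, F g * F' g ∂(gpi ι) - (∫ g, F g ∂(gpi ι)) * ∫ g, F' g ∂(gpi ι)

/-- **Comparison of covariances.** -/
theorem cov_le {κ : Type*} (s : Finset κ) (w : κ → ℝ) (c : ℝ) {A A' : κ → (ι → ℝ) → ℝ}
    {D D' : κ → ι → (ι → ℝ) → ℝ} (h : RG F G) (h' : RG F' G') (hA : ∀ k, RG (A k) (D k))
    (hA' : ∀ k, RG (A' k) (D' k))
    (hle : ∀ x y, ∑ i, G i x * G' i y ≤ ∑ k ∈ s, w k * ∑ i, D k i x * D' k i y + c) :
    cv F F' ≤ ∑ k ∈ s, w k * cv (A k) (A' k) + c := by
  have hphi : ∀ θ, P2 G G' θ ≤ ∑ k ∈ s, w k * P2 (D k) (D' k) θ + 2 * c := by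
    intro θ
    have d1 := Dom.sum s fun k _ => (dom_P2 (hA k) (hA' k) θ).const_mul (w k)
    have e1 : ∑ k ∈ s, w k * P2 (D k) (D' k) θ + 2 * c = ∫ g : J3 ι → ℝ, (∑ k ∈ s, w k *
        (∑ i, D k i (ca θ g) * D' k i (cb θ g) + ∑ i, D k i (cb θ g) * D' k i (ca θ g)) + 2 * c)
        ∂(gpi (J3 ι)) := by
      rw [int_add d1 (Dom.const _), int_sum s fun k _ => (dom_P2 (hA k) (hA' k) θ).const_mul (w k)]
      simp only [integral_const_mul, integral_const, probReal_univ, smul_eq_mul, one_mul]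
      rfl
    rw [e1]
    refine int_mono (dom_P2 h h' θ) (d1.add (Dom.const _)) fun g => ?_
    have q1 := hle (ca θ g) (cb θ g)
    have q2 := hle (cb θ g) (ca θ g)
    simp only [mul_add, Finset.sum_add_distrib]
    linarith
  obtain ⟨E, hE⟩ : ∃ E : ℝ → ℝ, E = fun θ => ∑ k ∈ s, w k * K2 (A k) (A' k) θ - K2 F F' θ +
    c * Real.cos θ ^ 2 := ⟨_, rfl⟩
  have dE : ∀ θ, HasDerivAt E (-(Real.sin θ * Real.cos θ) *
      (∑ k ∈ s, w k * P2 (D k) (D' k) θ + 2 * c - P2 G G' θ)) θ := by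
    intro θ
    rw [hE]
    refine (((HasDerivAt.fun_sum fun k _ => (hasDerivAt_K2 (hA k) (hA' k) θ).const_mul (w k)).sub
      (hasDerivAt_K2 h h' θ)).add
      (((Real.hasDerivAt_cos θ).fun_pow 2).const_mul c)).congr_deriv ?_
    rw [Nat.cast_ofNat, show (2 - 1 : ℕ) = 1 from rfl, pow_one, mul_sub, mul_add, Finset.mul_sum]
    have e : ∑ k ∈ s, w k * (-(Real.sin θ * Real.cos θ) * P2 (D k) (D' k) θ) =
        ∑ k ∈ s, -(Real.sin θ * Real.cos θ) * (w k * P2 (D k) (D' k) θ) :=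
      Finset.sum_congr rfl fun k _ => by ring
    rw [e]
    ring
  have mono : AntitoneOn E (Set.Icc 0 (Real.pi / 2)) := by
    refine antitoneOn_of_deriv_nonpos (convex_Icc _ _)
      (fun θ _ => (dE θ).continuousAt.continuousWithinAt)
      (fun θ _ => (dE θ).differentiableAt.differentiableWithinAt) fun θ hθ => ?_
    have hθ' := interior_subset hθ
    rw [(dE θ).deriv]
    have s0 : 0 ≤ Real.sin θ :=
      Real.sin_nonneg_of_nonneg_of_le_pi hθ'.1 (by linarith [hθ'.2, Real.pi_pos])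
    have c0 : 0 ≤ Real.cos θ :=
      Real.cos_nonneg_of_neg_pi_div_two_le_of_le (by linarith [hθ'.1, Real.pi_pos]) hθ'.2
    have := mul_nonneg (mul_nonneg s0 c0) (sub_nonneg.2 (hphi θ))
    linarith
  have hpi : (0 : ℝ) ≤ Real.pi / 2 := by positivity
  have h4 := mono (Set.left_mem_Icc.2 hpi) (Set.right_mem_Icc.2 hpi) hpi
  simp only [hE, Real.cos_pi_div_two, Real.cos_zero, K2_zero h.dom h'.dom, K2_pi h.dom h'.dom,
    fun k => K2_zero (hA k).dom (hA' k).dom, fun k => K2_pi (hA k).dom (hA' k).dom] at h4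
  simp only [cv, mul_sub, Finset.sum_sub_distrib]
  linarith

/-- two cosines of linear combinations at different angles -/
theorem cos_le {κ κ' : Type*} (s : Finset κ) (s' : Finset κ') (u α : κ → ℝ) (v α' : κ' → ℝ)
    (c c' : ℝ) (h : RG F G) {β : ℝ} (hβ : 0 ≤ β) (hG : ∀ x y, -β ≤ 2 * ∑ i, G i x * G i y)
    (hcos : ∀ k ∈ s, ∀ l ∈ s', 0 ≤ Real.cos (α' l - α k)) :
    cv (fun g => Real.cos (∑ k ∈ s, u k * F (rr (α k) g) + c))
      (fun g => Real.cos (∑ l ∈ s', v l * F (rr (α' l) g) + c')) ≤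
      ∑ q ∈ s ×ˢ s', |u q.1| * |v q.2| *
        (cv (fun g => F (rr (α q.1) g)) (fun g => F (rr (α' q.2) g)) + β) := by
  have k := cov_le (s ×ˢ s') (fun q => |u q.1| * |v q.2|) (∑ q ∈ s ×ˢ s', |u q.1| * |v q.2| * β)
    (RG.sum s u c fun k => h.rr (α k)).cos (RG.sum s' v c' fun l => h.rr (α' l)).cos
    (fun q => h.rr (α q.1)) (fun q => h.rr (α' q.2)) ?_
  · simp only [mul_add, Finset.sum_add_distrib]
    exact k
  intro x y
  obtain ⟨a, ha⟩ : ∃ a, a = -Real.sin (∑ k ∈ s, u k * F (rr (α k) x) + c) := ⟨_, rfl⟩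
  obtain ⟨a', ha'⟩ : ∃ a', a' = -Real.sin (∑ l ∈ s', v l * F (rr (α' l) y) + c') := ⟨_, rfl⟩
  have h1 : |a| ≤ 1 := by rw [ha, abs_neg]; exact Real.abs_sin_le_one _
  have h2 : |a'| ≤ 1 := by rw [ha', abs_neg]; exact Real.abs_sin_le_one _
  rw [← ha, ← ha', ← Finset.sum_add_distrib]
  have e : ∑ j, a * (∑ k ∈ s, u k * gr (α k) G j x) * (a' * ∑ l ∈ s', v l * gr (α' l) G j y) =
      ∑ q ∈ s ×ˢ s', a * a' * u q.1 * v q.2 * ∑ j, gr (α q.1) G j x * gr (α' q.2) G j y := by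
    simp only [Finset.mul_sum, Finset.sum_mul]
    rw [Finset.sum_comm' (t' := Finset.univ) (s' := fun _ => s ×ˢ s') (by simp)]
    refine Finset.sum_congr rfl fun j _ => ?_
    rw [Finset.sum_product, Finset.sum_comm]
    exact Finset.sum_congr rfl fun k _ => Finset.sum_congr rfl fun l _ => by ring
  rw [e]
  refine Finset.sum_le_sum fun q hq => ?_
  rw [Finset.mem_product] at hq
  rw [gr_inner]
  have h3 := hcos _ hq.1 _ hq.2
  have h4 := Real.cos_le_one (α' q.2 - α q.1)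
  have h5 := hG (rr (α q.1) x) (rr (α' q.2) y)
  obtain ⟨S, hS⟩ : ∃ S, S = ∑ i, G i (rr (α q.1) x) * G i (rr (α' q.2) y) := ⟨_, rfl⟩
  obtain ⟨t, ht⟩ : ∃ t, t = Real.cos (α' q.2 - α q.1) := ⟨_, rfl⟩
  rw [← hS] at h5 ⊢
  rw [← ht] at h3 h4 ⊢
  have h6 : |t * S| ≤ t * S + β := by
    rw [abs_le]
    constructor <;> nlinarith
  have h7 : |a * a'| ≤ 1 := by
    rw [abs_mul]
    exact mul_le_one₀ h1 (abs_nonneg _) h2
  have h8 : 0 ≤ |u q.1| * |v q.2| := by positivity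
  calc a * a' * u q.1 * v q.2 * (t * S) ≤ |a * a' * u q.1 * v q.2 * (t * S)| := le_abs_self _
    _ = |a * a'| * (|u q.1| * |v q.2| * |t * S|) := by simp only [abs_mul]; ring
    _ ≤ |u q.1| * |v q.2| * |t * S| := mul_le_of_le_one_left (by positivity) h7
    _ ≤ |u q.1| * |v q.2| * (t * S + β) := mul_le_mul_of_nonneg_left h6 h8
    _ = _ := by ring

end abstr

variable {n : ℕ} {b : ℝ}

lemma grad_inner (hn : 1 ≤ n) (x y : Pair n → ℝ) :
    -b ^ 2 ≤ 2 * ∑ p : Pair n, gradF n b p x * gradF n b p y := by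
  have hn0 : (0 : ℝ) < n := by exact_mod_cast hn
  have h2 : 0 ≤ ∑ σ : Fin n → ℤˣ, ∑ τ : Fin n → ℤˣ,
      overlap n σ τ ^ 2 * gibbs n b x σ * gibbs n b y τ := by
    refine Finset.sum_nonneg fun σ _ => Finset.sum_nonneg fun τ _ => ?_
    have h3 := Gauge.gibbs_nonneg b x σ
    have h4 := Gauge.gibbs_nonneg b y τ
    positivity
  rw [pair_overlap n b hn x y] at h2
  have e : ∑ p : Pair n, gradF n b p x * gradF n b p y =
      b ^ 2 / n * ∑ p : Pair n, av n b (ps p) x * av n b (ps p) y := by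
    rw [Finset.mul_sum]
    refine Finset.sum_congr rfl fun p _ => ?_
    unfold gradF
    have h2 : b / Real.sqrt n * (b / Real.sqrt n) = b ^ 2 / n := by
      rw [div_mul_div_comm, Real.mul_self_sqrt hn0.le, sq]
    rw [← h2]
    ring
  rw [e]
  obtain ⟨S, hS⟩ : ∃ S, S = ∑ p : Pair n, av n b (ps p) x * av n b (ps p) y := ⟨_, rfl⟩
  rw [← hS] at h2 ⊢
  have h3 : 0 ≤ b ^ 2 * n * (1 / n + 2 / (n : ℝ) ^ 2 * S) := by positivity
  have e2 : b ^ 2 * n * (1 / n + 2 / (n : ℝ) ^ 2 * S) = b ^ 2 + 2 * (b ^ 2 / n * S) := by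
    field_simp
  rw [e2] at h3
  linarith

lemma int_split {f : (Pair n → ℝ) × (Pair n → ℝ) → ℝ} (hf : Continuous f) :
    ∫ g : Pair n ⊕ Pair n → ℝ, f ((fun i => g (Sum.inl i)), fun j => g (Sum.inr j))
      ∂(gpi (Pair n ⊕ Pair n)) = ∫ w, f w ∂(PP n) := by
  have h := mp_split (Pair n) (Pair n)
  have e : PP n = (gpi (Pair n)).prod (gpi (Pair n)) := rfl
  rw [e, ← h.map_eq, integral_map h.measurable.aemeasurable hf.aestronglyMeasurable]

lemma cv_split {f f' : (Pair n → ℝ) × (Pair n → ℝ) → ℝ} (hf : Continuous f)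
    (hf' : Continuous f') :
    cv (fun g : Pair n ⊕ Pair n → ℝ => f ((fun i => g (Sum.inl i)), fun j => g (Sum.inr j)))
      (fun g => f' ((fun i => g (Sum.inl i)), fun j => g (Sum.inr j))) =
      ∫ w, f w * f' w ∂(PP n) - (∫ w, f w ∂(PP n)) * ∫ w, f' w ∂(PP n) := by
  unfold cv
  rw [int_split hf, int_split hf', ← int_split (f := fun w => f w * f' w) (hf.mul hf')]

/-- two cosines of linear combinations of free energies at different angles -/
lemma cos_rot (hn : 1 ≤ n) (s s' : Finset ℝ) (u α v α' : ℝ → ℝ) (c c' : ℝ)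
    (hcos : ∀ k ∈ s, ∀ l ∈ s', 0 ≤ Real.cos (α' l - α k)) :
    ∫ w, Real.cos (∑ k ∈ s, u k * freeEnergy n b (rot n (α k) w) + c) *
        Real.cos (∑ l ∈ s', v l * freeEnergy n b (rot n (α' l) w) + c') ∂(PP n) -
      (∫ w, Real.cos (∑ k ∈ s, u k * freeEnergy n b (rot n (α k) w) + c) ∂(PP n)) *
        ∫ w, Real.cos (∑ l ∈ s', v l * freeEnergy n b (rot n (α' l) w) + c') ∂(PP n) ≤
      ∑ q ∈ s ×ˢ s', |u q.1| * |v q.2| * (crossCov n b (Real.cos (α' q.2 - α q.1)) + b ^ 2) := by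
  have hc : ∀ θ, Continuous fun w => freeEnergy n b (rot n θ w) := fun θ =>
    (cont_free n b).comp (cont_rot' θ)
  have k := cos_le s s' u α v α' c c' ⟨_, _, reg_freeEnergy n b⟩ (sq_nonneg b) (grad_inner hn) hcos
  rw [← cv_split (by fun_prop) (by fun_prop)]
  refine k.trans (le_of_eq (Finset.sum_congr rfl fun q hq => ?_))
  rw [Finset.mem_product] at hq
  have e := cv_split (hc (α q.1)) (hc (α' q.2))
  rw [cov_rot (hcos _ hq.1 _ hq.2), mean_rot, mean_rot] at e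
  have e2 : cv (fun g => freeEnergy n b (rr (α q.1) g)) (fun g => freeEnergy n b (rr (α' q.2) g)) =
      crossCov n b (Real.cos (α' q.2 - α q.1)) := by
    refine Eq.trans e ?_
    ring
  rw [e2]

/-- the far bound in the scaling window -/
lemma far_bound (h : CW b) : ∃ C : ℝ, 0 < C ∧ ∀ n : ℕ, 2 ≤ n → ∀ δ : ℝ, δ ≠ 0 →
    |δ| ≤ (n : ℝ) ^ (1 / 6 : ℝ) →
    crossCov n b (Real.cos (δ / (n : ℝ) ^ (1 / 6 : ℝ))) / ((n : ℝ) ^ (1 / 6 : ℝ)) ^ 2 ≤
      C * |δ| ^ (-(1 / 500) : ℝ) := by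
  obtain ⟨C, hC, h⟩ := h
  refine ⟨C * (1 / 8) ^ (-(1 / 1000) : ℝ), by positivity, fun n hn δ hδ h1 => ?_⟩
  have hN1 := N_ge (n := n) (by omega)
  obtain ⟨s1, s2, -, s4⟩ := share hN1 hδ h1
  obtain ⟨-, -, -, k⟩ := (h n hn).2 _ s1 s2
  rw [sub_sub_cancel, ← N_sq] at k
  rw [div_le_iff₀ (by positivity)]
  refine k.trans ?_
  have h2 := Real.rpow_le_rpow_of_nonpos (by positivity) s4 (show (-(1 / 1000) : ℝ) ≤ 0 by norm_num)
  have h3 : (δ ^ 2 / 8) ^ (-(1 / 1000) : ℝ) =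
      (1 / 8) ^ (-(1 / 1000) : ℝ) * |δ| ^ (-(1 / 500) : ℝ) := by
    rw [show δ ^ 2 / 8 = 1 / 8 * δ ^ 2 by ring, Real.mul_rpow (by norm_num) (sq_nonneg δ), sq_rpow]
    norm_num
  rw [h3] at h2
  calc _ ≤ C * ((n : ℝ) ^ (1 / 6 : ℝ)) ^ 2 *
        ((1 / 8) ^ (-(1 / 1000) : ℝ) * |δ| ^ (-(1 / 500) : ℝ)) :=
        mul_le_mul_of_nonneg_left h2 (by positivity)
    _ = _ := by ring

/-- **Decorrelation of trigonometric functions of the path.** -/
theorem cos_cov (h : CW b) : ∃ C : ℝ, 0 < C ∧ ∀ n : ℕ, 2 ≤ n → ∀ (s s' : Finset ℝ)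
    (u t v t' : ℝ → ℝ) (c c' : ℝ),
    (∀ k ∈ s, ∀ l ∈ s', t' l - t k ≠ 0 ∧ |t' l - t k| ≤ (n : ℝ) ^ (1 / 6 : ℝ)) →
    |∫ w, Real.cos (∑ k ∈ s, u k * path n b w (t k) + c) *
        Real.cos (∑ l ∈ s', v l * path n b w (t' l) + c') ∂(PP n) -
      (∫ w, Real.cos (∑ k ∈ s, u k * path n b w (t k) + c) ∂(PP n)) *
        ∫ w, Real.cos (∑ l ∈ s', v l * path n b w (t' l) + c') ∂(PP n)| ≤
      ∑ q ∈ s ×ˢ s', |u q.1| * |v q.2| *
        (C * |t' q.2 - t q.1| ^ (-(1 / 500) : ℝ) + b ^ 2 / ((n : ℝ) ^ (1 / 6 : ℝ)) ^ 2) := by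
  obtain ⟨C, hC, hf⟩ := far_bound h
  refine ⟨C, hC, fun n hn s s' u t v t' c c' ht => ?_⟩
  have hN1 := N_ge (n := n) (by omega)
  have hf' := hf n hn
  obtain ⟨N, hN⟩ : ∃ N, N = (n : ℝ) ^ (1 / 6 : ℝ) := ⟨_, rfl⟩
  have e : ∀ (s : Finset ℝ) (u t : ℝ → ℝ) (c : ℝ) (w : (Pair n → ℝ) × (Pair n → ℝ)),
      ∑ k ∈ s, u k * path n b w (t k) + c =
        ∑ k ∈ s, u k / N * freeEnergy n b (rot n (t k / N) w) +
          (c - ∑ k ∈ s, u k / N * meanF n b) := by
    intro s u t c w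
    have : ∑ k ∈ s, u k * path n b w (t k) = ∑ k ∈ s, u k / N * freeEnergy n b (rot n (t k / N) w) -
        ∑ k ∈ s, u k / N * meanF n b := by
      rw [← Finset.sum_sub_distrib]
      refine Finset.sum_congr rfl fun k _ => ?_
      simp only [path, ContinuousMap.coe_mk, ← hN]
      ring
    rw [this]
    ring
  rw [← hN] at hN1 ht hf' ⊢
  have hN0 : 0 < N := by linarith
  have one : ∀ c' : ℝ, ∫ w, Real.cos (∑ k ∈ s, u k * path n b w (t k) + c) *
        Real.cos (∑ l ∈ s', v l * path n b w (t' l) + c') ∂(PP n) -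
      (∫ w, Real.cos (∑ k ∈ s, u k * path n b w (t k) + c) ∂(PP n)) *
        ∫ w, Real.cos (∑ l ∈ s', v l * path n b w (t' l) + c') ∂(PP n) ≤
      ∑ q ∈ s ×ˢ s', |u q.1| * |v q.2| *
        (C * |t' q.2 - t q.1| ^ (-(1 / 500) : ℝ) + b ^ 2 / N ^ 2) := by
    intro c'
    simp only [e]
    refine (cos_rot (by omega) s s' (fun k => u k / N) (fun k => t k / N) (fun k => v k / N)
      (fun k => t' k / N) _ _ fun k hk l hl => ?_).trans (Finset.sum_le_sum fun q hq => ?_)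
    · refine (Real.cos_pos_of_le_one ?_).le
      rw [← sub_div, abs_div, abs_of_pos hN0, div_le_one hN0]
      exact (ht k hk l hl).2
    · rw [Finset.mem_product] at hq
      have k1 := hf' _ (ht _ hq.1 _ hq.2).1 (ht _ hq.1 _ hq.2).2
      rw [← sub_div, abs_div, abs_div, abs_of_pos hN0]
      have k2 := mul_le_mul_of_nonneg_left (add_le_add_left k1 (b ^ 2 / N ^ 2))
        (show 0 ≤ |u q.1| * |v q.2| by positivity)
      refine le_trans (le_of_eq ?_) k2
      field_simp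
  rw [abs_le]
  refine ⟨?_, one c'⟩
  have k := one (c' + Real.pi)
  simp only [← add_assoc, Real.cos_add_pi, mul_neg, integral_neg] at k
  linarith

end Vale.Agent.N146.Proc
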